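import Mathlib

/-!
# Row 337, ENG: link sums and the geometric mean over levels (abstract part)

`c Y` is the rate of ONE loop covering the set `Y` of witness points (linearly ordered, DFS order).
* `gm_bound` : from weighted (N0), a one-point bound `B`, row sums `r i` of the Green majorant over
  `i`-separated sets and point weights `a`, `c Y ≤ B(first)^wB * ∏_{links (u,v) of Y} eta u v`.
* `link_sum` : the sum over all `Y` of such products is a geometric series.
* `drift` : both together, with point prices `θ`, allowed first points `F`, allowed links `Lk`.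
-/

set_option autoImplicit false
set_option linter.unusedSectionVars false

namespace Crest.Agent.N337.WN

open Finset

section link
variable {ι : Type} [LinearOrder ι]

/-- product of `η` over the consecutive pairs of `x :: l`. -/
def ch (η : ι → ι → ℝ) : ι → List ι → ℝ
  | _, [] => 1
  | x, z :: l => η x z * ch η z l

/-- `δ (first) * ∏ links`. -/
def hd (δ : ι → ℝ) (η : ι → ι → ℝ) : List ι → ℝ
  | [] => 0
  | x :: l => δ x * ch η x l

lemma hd_cons (δ : ι → ℝ) (η : ι → ι → ℝ) (x : ι) (l : List ι) :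
    hd δ η (x :: l) = δ x * ch η x l := rfl

lemma ch_nonneg {η : ι → ι → ℝ} (h : ∀ u v, 0 ≤ η u v) (x : ι) (l : List ι) : 0 ≤ ch η x l := by
  induction l generalizing x with
  | nil => exact zero_le_one
  | cons z l ih => exact mul_nonneg (h _ _) (ih z)

lemma hd_nonneg {δ : ι → ℝ} {η : ι → ι → ℝ} (hδ : ∀ u, 0 ≤ δ u) (h : ∀ u v, 0 ≤ η u v)
    (l : List ι) : 0 ≤ hd δ η l := by
  cases l with
  | nil => exact le_rfl
  | cons x l => exact mul_nonneg (hδ x) (ch_nonneg h x l)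

lemma ch_mul (η η' : ι → ι → ℝ) (x : ι) (l : List ι) :
    ch (fun u v => η u v * η' u v) x l = ch η x l * ch η' x l := by
  induction l generalizing x with
  | nil => simp [ch]
  | cons z l ih => simp only [ch, ih]; ring

lemma ch_pt (f : ι → ℝ) (x : ι) (l : List ι) : ch (fun _ v => f v) x l = (l.map f).prod := by
  induction l generalizing x with
  | nil => simp [ch]
  | cons z l ih => simp only [ch, ih, List.map_cons, List.prod_cons]

lemma sort_insert_min {a : ι} {s : Finset ι} (h : ∀ x ∈ s, a < x) {Y : Finset ι} (hY : Y ⊆ s) :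
    (insert a Y).sort (· ≤ ·) = a :: Y.sort (· ≤ ·) :=
  sort_insert (r := (· ≤ ·)) (fun _ hb => (h _ (hY hb)).le) fun ha => lt_irrefl _ (h _ (hY ha))

lemma ch_sum {η : ι → ι → ℝ} (h : ∀ u v, 0 ≤ η u v) {κ : ℝ} (hκ : κ < 1) (s : Finset ι)
    (hs : ∀ u ∈ s, ∑ v ∈ s with u < v, η u v ≤ κ) (x : ι) :
    ∑ Y ∈ s.powerset, ch η x (Y.sort (· ≤ ·)) ≤ 1 + (∑ v ∈ s, η x v) / (1 - κ) := by
  induction s using Finset.induction_on_min generalizing x with
  | empty => simp [ch]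
  | insert a s ha ih =>
    have hna : a ∉ s := fun h' => lt_irrefl _ (ha a h')
    have hs' : ∀ u ∈ s, ∑ v ∈ s with u < v, η u v ≤ κ := fun u hu =>
      (sum_le_sum_of_subset_of_nonneg (filter_subset_filter _ (subset_insert a s))
        fun v _ _ => h u v).trans (hs u (mem_insert_of_mem hu))
    have h1 : ∑ v ∈ s, η a v ≤ κ :=
      (sum_le_sum_of_subset_of_nonneg (fun v hv => mem_filter.2 ⟨mem_insert_of_mem hv, ha v hv⟩)
        fun v _ _ => h a v).trans (hs a (mem_insert_self a s))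
    have h0 : 0 < 1 - κ := sub_pos.2 hκ
    rw [sum_powerset_insert hna, sum_insert hna,
      sum_congr rfl fun Y hY => congrArg (ch η x) (sort_insert_min ha (mem_powerset.1 hY))]
    simp only [ch, ← mul_sum]
    have h2 : ∑ Y ∈ s.powerset, ch η a (Y.sort (· ≤ ·)) ≤ 1 / (1 - κ) := by
      refine (ih hs' a).trans ?_
      rw [le_div_iff₀ h0, add_mul, div_mul_cancel₀ _ h0.ne']; linarith
    have h3 := mul_le_mul_of_nonneg_left h2 (h x a)
    have h4 := ih hs' x
    rw [add_div, div_eq_mul_one_div (η x a)]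
    linarith

/-- the link sum. -/
theorem link_sum {δ : ι → ℝ} {η : ι → ι → ℝ} (hδ : ∀ u, 0 ≤ δ u) (h : ∀ u v, 0 ≤ η u v) {κ : ℝ}
    (hκ : κ < 1) (s : Finset ι) (hs : ∀ u ∈ s, ∑ v ∈ s with u < v, η u v ≤ κ) :
    ∑ Y ∈ s.powerset, hd δ η (Y.sort (· ≤ ·)) ≤ (∑ v ∈ s, δ v) / (1 - κ) := by
  induction s using Finset.induction_on_min with
  | empty => simp [hd]
  | insert a s ha ih =>
    have hna : a ∉ s := fun h' => lt_irrefl _ (ha a h')
    have hs' : ∀ u ∈ s, ∑ v ∈ s with u < v, η u v ≤ κ := fun u hu =>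
      (sum_le_sum_of_subset_of_nonneg (filter_subset_filter _ (subset_insert a s))
        fun v _ _ => h u v).trans (hs u (mem_insert_of_mem hu))
    have h1 : ∑ v ∈ s, η a v ≤ κ :=
      (sum_le_sum_of_subset_of_nonneg (fun v hv => mem_filter.2 ⟨mem_insert_of_mem hv, ha v hv⟩)
        fun v _ _ => h a v).trans (hs a (mem_insert_self a s))
    have h0 : 0 < 1 - κ := sub_pos.2 hκ
    rw [sum_powerset_insert hna, sum_insert hna,
      sum_congr rfl fun Y hY => congrArg (hd δ η) (sort_insert_min ha (mem_powerset.1 hY))]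
    simp only [hd_cons, ← mul_sum]
    have h2 : ∑ Y ∈ s.powerset, ch η a (Y.sort (· ≤ ·)) ≤ 1 / (1 - κ) := by
      refine (ch_sum h hκ s hs' a).trans ?_
      rw [le_div_iff₀ h0, add_mul, div_mul_cancel₀ _ h0.ne']; linarith
    have h3 := mul_le_mul_of_nonneg_left h2 (hδ a)
    have h4 := ih hs'
    rw [add_div, div_eq_mul_one_div (δ a)]
    linarith

/-- the points whose link to the predecessor has level `> i`. -/
def sel (ℓ : ι → ι → ℕ) (i : ℕ) : ι → List ι → List ι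
  | _, [] => []
  | x, z :: l => if i < ℓ x z then z :: sel ℓ i z l else sel ℓ i z l

lemma sel_sub (ℓ : ι → ι → ℕ) (i : ℕ) (x : ι) (l : List ι) : (sel ℓ i x l).Sublist l := by
  induction l generalizing x with
  | nil => exact List.Sublist.refl _
  | cons z l ih =>
    simp only [sel]; split_ifs
    exacts [(ih z).cons_cons z, (ih z).cons z]

lemma sel_far {ℓ : ι → ι → ℕ} (hℓ : ∀ u w v, u < w → w < v → ℓ w v ≤ ℓ u v) (i : ℕ) (x : ι)
    (l : List ι) (hl : (x :: l).Pairwise (· < ·)) :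
    ∀ v ∈ sel ℓ i x l, ∀ u, u ≤ x → i < ℓ u v := by
  induction l generalizing x with
  | nil => simp [sel]
  | cons z l ih =>
    have hxz : x < z := List.rel_of_pairwise_cons hl List.mem_cons_self
    have h2 := ih z hl.of_cons
    intro v hv u hu
    simp only [sel] at hv
    split_ifs at hv with h
    · rcases List.mem_cons.1 hv with rfl | hv
      · rcases hu.lt_or_eq with hu | rfl
        · exact h.trans_le (hℓ u x v hu hxz)
        · exact h
      · exact h2 v hv u (hu.trans hxz.le)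
    · exact h2 v hv u (hu.trans hxz.le)

lemma sel_pair {ℓ : ι → ι → ℕ} (hℓ : ∀ u w v, u < w → w < v → ℓ w v ≤ ℓ u v) (i : ℕ) (x : ι)
    (l : List ι) (hl : (x :: l).Pairwise (· < ·)) :
    (x :: sel ℓ i x l).Pairwise fun u v => i < ℓ u v := by
  induction l generalizing x with
  | nil => simp [sel]
  | cons z l ih =>
    refine List.pairwise_cons.2 ⟨fun v hv => sel_far hℓ i x _ hl v hv x le_rfl, ?_⟩
    have := ih z hl.of_cons
    simp only [sel]; split_ifs
    exacts [this, this.of_cons]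

lemma ch_sel (ℓ : ι → ι → ℕ) (i : ℕ) (ρ : ℝ) (x : ι) (l : List ι) :
    ch (fun u v => if i < ℓ u v then ρ else 1) x l = ρ ^ (sel ℓ i x l).length := by
  induction l generalizing x with
  | nil => simp [ch, sel]
  | cons z l ih =>
    simp only [ch, sel, ih]; split_ifs
    · rw [List.length_cons, pow_succ']
    · rw [one_mul]

lemma ch_prod (f : ℕ → ι → ι → ℝ) (L : ℕ) (x : ι) (l : List ι) :
    ch (fun u v => ∏ i ∈ range L, f i u v) x l = ∏ i ∈ range L, ch (f i) x l := by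
  induction L with
  | zero => simpa using ch_pt (fun _ => (1 : ℝ)) x l
  | succ L ih => simp only [prod_range_succ, ch_mul, ih]

end link

lemma gmean {c : ℝ} (h0 : 0 ≤ c) (h1 : c ≤ 1) {κ : Type} (s : Finset κ) {A w : κ → ℝ}
    (hA : ∀ i ∈ s, c ≤ A i) (hw : ∀ i ∈ s, 0 ≤ w i) (hs : ∑ i ∈ s, w i ≤ 1) :
    c ≤ ∏ i ∈ s, A i ^ w i := by
  calc c = c ^ (1 : ℝ) := (Real.rpow_one c).symm
    _ ≤ c ^ (∑ i ∈ s, w i) := Real.rpow_le_rpow_of_exponent_ge' h0 h1 (sum_nonneg hw) hs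
    _ = ∏ i ∈ s, c ^ w i := Real.rpow_sum_of_nonneg h0 hw
    _ ≤ _ := prod_le_prod (fun i _ => Real.rpow_nonneg h0 _) fun i hi =>
        Real.rpow_le_rpow h0 (hA i hi) (hw i hi)

section gm
variable {ι : Type} [LinearOrder ι]

/-- what weighted (N0) delivers for a covering rate `c` and a Green majorant `g` on `X`. -/
structure Cov (X : Finset ι) (c : Finset ι → ℝ) (g : ι → ι → ℝ) : Prop where
  nonneg : ∀ Y, 0 ≤ c Y
  le_one : ∀ Y, c Y ≤ 1
  anti : ∀ Y' Y, Y' ⊆ Y → Y ⊆ X → Y'.Nonempty → c Y ≤ c Y'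
  g0 : ∀ v u, 0 ≤ g v u
  n0 : ∀ Y, Y ⊆ X → Even Y.card → Y.Nonempty → ∀ a : ι → ℝ, (∀ v ∈ Y, 0 < a v) → ∀ q : ℝ,
    ∑ v ∈ Y, ∑ u ∈ Y.erase v, a v * a u * g v u ≤ q →
      c Y ≤ 2 ^ Y.card * Real.exp q / ∏ v ∈ Y, a v

variable {X : Finset ι} {c : Finset ι → ℝ} {g : ι → ι → ℝ}

lemma Cov.even (H : Cov X c g) {Y : Finset ι} (hY : Y ⊆ X) (he : Even Y.card) {a : ι → ℝ}
    (ha : ∀ v ∈ Y, 0 < a v) (hr : ∀ v ∈ Y, ∑ u ∈ Y.erase v, a v * a u * g v u ≤ 1) :
    c Y ≤ ∏ v ∈ Y, 6 / a v := by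
  rcases Y.eq_empty_or_nonempty with rfl | hne
  · simpa using H.le_one ∅
  refine (H.n0 Y hY he hne a ha Y.card ((sum_le_sum hr).trans (by simp))).trans ?_
  rw [prod_div_distrib, prod_const]
  refine div_le_div_of_nonneg_right ?_ (prod_pos ha).le
  rw [← Real.exp_one_pow, ← mul_pow]
  exact pow_le_pow_left₀ (by positivity) (by linarith [Real.exp_one_lt_d9]) _

/-- drop any one point. -/
lemma Cov.drop (H : Cov X c g) {Y : Finset ι} (hY : Y ⊆ X) {x : ι} (hx : x ∈ Y) {a : ι → ℝ}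
    (ha : ∀ v ∈ Y, 6 ≤ a v) (hr : ∀ v ∈ Y, ∑ u ∈ Y.erase v, a v * a u * g v u ≤ 1) :
    c Y ≤ ∏ v ∈ Y.erase x, 6 / a v := by
  have ha0 : ∀ v ∈ Y, 0 < a v := fun v hv => lt_of_lt_of_le (by norm_num) (ha v hv)
  rcases Nat.even_or_odd Y.card with he | ho
  · refine (H.even hY he ha0 hr).trans ?_
    rw [← mul_prod_erase _ _ hx]
    exact mul_le_of_le_one_left (prod_nonneg fun v hv =>
      (div_pos (by norm_num) (ha0 v (mem_of_mem_erase hv))).le) ((div_le_one (ha0 x hx)).2 (ha x hx))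
  · rcases (Y.erase x).eq_empty_or_nonempty with h | h
    · rw [h]; simpa using H.le_one Y
    refine (H.anti _ Y (erase_subset x Y) hY h).trans (H.even ((erase_subset x Y).trans hY) ?_
      (fun v hv => ha0 v (mem_of_mem_erase hv)) fun v hv => le_trans ?_ (hr v (mem_of_mem_erase hv)))
    · rw [card_erase_of_mem hx]; exact Nat.Odd.sub_odd ho odd_one
    · exact sum_le_sum_of_subset_of_nonneg (erase_subset_erase v (erase_subset x Y))
        fun u hu _ => mul_nonneg (mul_nonneg (ha0 v (mem_of_mem_erase hv)).le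
          (ha0 u (mem_of_mem_erase hu)).le) (H.g0 v u)

/-- the data of a witness set: levels `ℓ`, level row sums `r`, point weights `a`. -/
structure Tree (X : Finset ι) (g : ι → ι → ℝ) (ℓ : ι → ι → ℕ) (L : ℕ) (r : ℕ → ℝ)
    (a : ι → ℝ) : Prop where
  mono : ∀ u w v, u < w → w < v → ℓ w v ≤ ℓ u v
  rpos : ∀ i < L, 0 < r i
  rle : ∀ i < L, 36 * r i ≤ 1
  row : ∀ i < L, ∀ Y ⊆ X, (∀ u ∈ Y, ∀ v ∈ Y, u < v → i < ℓ u v) →
    ∀ v ∈ Y, ∑ u ∈ Y.erase v, g v u ≤ r i
  age : ∀ v ∈ X, 6 ≤ a v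
  arow : ∀ v ∈ X, ∑ u ∈ X.erase v, a v * a u * g v u ≤ 1

/-- the price of a link. -/
noncomputable def eta (ℓ : ι → ι → ℕ) (L : ℕ) (r w : ℕ → ℝ) (a : ι → ℝ) (wA : ℝ) (u v : ι) : ℝ :=
  (6 / a v) ^ wA * ∏ i ∈ range L, if i < ℓ u v then (6 * √(r i)) ^ w i else 1

variable {ℓ : ι → ι → ℕ} {L : ℕ} {r w : ℕ → ℝ} {a B : ι → ℝ} {wA wB : ℝ}

lemma Cov.level (H : Cov X c g) (Tt : Tree X g ℓ L r a) {Y : Finset ι} (hY : Y ⊆ X) {x : ι}
    {l : List ι} (hl : Y.sort (· ≤ ·) = x :: l) {i : ℕ} (hi : i < L) :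
    c Y ≤ (6 * √(r i)) ^ (sel ℓ i x l).length := by
  have hp : (x :: l).Pairwise (· < ·) := hl ▸ (Y.sortedLT_sort).pairwise
  have hp' : (x :: sel ℓ i x l).Pairwise (· < ·) := hp.sublist ((sel_sub ℓ i x l).cons_cons x)
  have hnd : (x :: sel ℓ i x l).Nodup := hp'.imp fun h => h.ne
  set Y' := (x :: sel ℓ i x l).toFinset with hY'
  have hsub : Y' ⊆ Y := fun v hv => by
    rw [← mem_sort (· ≤ ·), hl]
    exact ((sel_sub ℓ i x l).cons_cons x).subset (List.mem_toFinset.1 hv)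
  have hx : x ∈ Y' := List.mem_toFinset.2 List.mem_cons_self
  have hr := Tt.rpos i hi
  have hs : 0 < √(r i) := Real.sqrt_pos.2 hr
  have hsep : ∀ u ∈ Y', ∀ v ∈ Y', u < v → i < ℓ u v := by
    have h2 : (x :: sel ℓ i x l).Pairwise fun u v => u < v ∧ i < ℓ u v :=
      hp'.and (sel_pair Tt.mono i x l hp)
    have h3 : (x :: sel ℓ i x l).Pairwise fun u v => (u < v → i < ℓ u v) ∧ (v < u → i < ℓ v u) :=
      h2.imp fun h => ⟨fun _ => h.2, fun h' => absurd h.1 h'.not_gt⟩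
    intro u hu v hv huv
    have : Std.Symm fun u v => (u < v → i < ℓ u v) ∧ (v < u → i < ℓ v u) :=
      ⟨fun _ _ h => ⟨h.2, h.1⟩⟩
    exact (h3.forall (List.mem_toFinset.1 hu) (List.mem_toFinset.1 hv) huv.ne).1 huv
  refine (H.anti Y' Y hsub hY ⟨x, hx⟩).trans ((H.drop (hsub.trans hY) hx
    (a := fun _ => (√(r i))⁻¹) (fun v _ => ?_) fun v hv => ?_).trans (le_of_eq ?_))
  · rw [le_inv_comm₀ (by norm_num) hs, Real.sqrt_le_left (by norm_num)]
    linarith [Tt.rle i hi]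
  · rw [← mul_sum, ← mul_inv, Real.mul_self_sqrt hr.le, inv_mul_le_iff₀ hr, mul_one]
    exact Tt.row i hi Y' (hsub.trans hY) hsep v hv
  · rw [prod_const, card_erase_of_mem hx, List.toFinset_card_of_nodup hnd, List.length_cons,
      Nat.add_sub_cancel, div_inv_eq_mul]

/-- **geometric mean over the levels**. -/
theorem gm_bound (H : Cov X c g) (Tt : Tree X g ℓ L r a) (hB : ∀ x ∈ X, c {x} ≤ B x)
    (hw : ∀ i, 0 ≤ w i) (hA : 0 ≤ wA) (hwB : 0 ≤ wB) (hs : ∑ i ∈ range L, w i + wA + wB ≤ 1)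
    {Y : Finset ι} (hY : Y ⊆ X) (hne : Y.Nonempty) :
    c Y ≤ hd (fun x => B x ^ wB) (eta ℓ L r w a wA) (Y.sort (· ≤ ·)) := by
  obtain ⟨x, l, hl⟩ : ∃ x l, Y.sort (· ≤ ·) = x :: l := by
    cases h : Y.sort (· ≤ ·) with
    | nil => exact absurd (by rw [← length_sort (· ≤ ·), h]; rfl) hne.card_pos.ne'
    | cons x l => exact ⟨x, l, rfl⟩
  have hx : x ∈ Y := by rw [← mem_sort (· ≤ ·), hl]; exact List.mem_cons_self
  have hnd : (x :: l).Nodup := hl ▸ sort_nodup Y _
  have hYe : Y.erase x = l.toFinset := by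
    ext v
    rw [mem_erase, ← mem_sort (· ≤ ·), hl, List.mem_toFinset, List.mem_cons]
    exact ⟨fun h => h.2.resolve_left h.1,
      fun h => ⟨fun e => (List.nodup_cons.1 hnd).1 (e ▸ h), Or.inr h⟩⟩
  have ha0 : ∀ v ∈ Y, 0 < a v := fun v hv => lt_of_lt_of_le (by norm_num) (Tt.age v (hY hv))
  have h1 : c Y ≤ B x := (H.anti {x} Y (singleton_subset_iff.2 hx) hY (singleton_nonempty x)).trans
    (hB x (hY hx))
  have h2 : c Y ≤ ∏ v ∈ Y.erase x, 6 / a v := H.drop hY hx (fun v hv => Tt.age v (hY hv))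
    fun v hv => le_trans (sum_le_sum_of_subset_of_nonneg (erase_subset_erase v hY) fun u hu _ =>
      mul_nonneg (mul_nonneg (ha0 v hv).le (le_trans (by norm_num)
        (Tt.age u (mem_of_mem_erase hu)))) (H.g0 v u)) (Tt.arow v (hY hv))
  have key := gmean (H.nonneg Y) (H.le_one Y) (insertNone (insertNone (range L)))
    (A := fun o => o.elim (B x) fun o => o.elim (∏ v ∈ Y.erase x, 6 / a v)
      fun i => (6 * √(r i)) ^ (sel ℓ i x l).length)
    (w := fun o => o.elim wB fun o => o.elim wA w)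
    (by rintro (_ | _ | i) hi
        exacts [h1, h2, H.level Tt hY hl (by simpa using hi)])
    (by rintro (_ | _ | i) _
        exacts [hwB, hA, hw i])
    (by simp only [sum_insertNone, Option.elim]; linarith)
  simp only [prod_insertNone, Option.elim] at key
  refine key.trans (le_of_eq ?_)
  rw [hl, hd]
  unfold eta
  rw [ch_mul, ch_prod, ch_pt]
  congr 2
  · rw [← Real.finset_prod_rpow _ _ fun v hv => (div_pos (by norm_num)
      (ha0 v (mem_of_mem_erase hv))).le, hYe, List.prod_toFinset _ (List.nodup_cons.1 hnd).2]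
  · refine prod_congr rfl fun i _ => ?_
    rw [ch_sel, ← Real.rpow_natCast, ← Real.rpow_natCast, ← Real.rpow_mul (by positivity),
      ← Real.rpow_mul (by positivity), mul_comm (w i)]

lemma eta_nonneg (ha : ∀ v, 0 ≤ a v) (u v : ι) : 0 ≤ eta ℓ L r w a wA u v :=
  mul_nonneg (Real.rpow_nonneg (div_nonneg (by norm_num) (ha v)) _)
    (prod_nonneg fun i _ => by split_ifs <;> positivity)

lemma ch_ind {Lk : ι → ι → Prop} [DecidableRel Lk] (η : ι → ι → ℝ) (x : ι) (l : List ι)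
    (h : (x :: l).IsChain Lk) : ch (fun u v => if Lk u v then η u v else 0) x l = ch η x l := by
  induction l generalizing x with
  | nil => rfl
  | cons z l ih =>
    rw [List.isChain_cons_cons] at h
    simp only [ch, if_pos h.1, ih z h.2]

lemma chain_of {Lk : ι → ι → Prop} (x : ι) (l : List ι) (hp : (x :: l).Pairwise (· < ·))
    (h : ∀ u ∈ x :: l, ∀ v ∈ x :: l, u < v → (∀ z ∈ x :: l, u < z → v ≤ z) → Lk u v) :
    (x :: l).IsChain Lk := by
  induction l generalizing x with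
  | nil => exact List.isChain_singleton x
  | cons y l ih =>
    have hx : ∀ z ∈ y :: l, x < z := fun z hz => List.rel_of_pairwise_cons hp hz
    refine List.isChain_cons_cons.2 ⟨h x List.mem_cons_self y (by simp) (hx y (by simp))
      fun z hz hxz => ?_, ih y hp.of_cons fun u hu v hv huv hz =>
        h u (List.mem_cons_of_mem _ hu) v (List.mem_cons_of_mem _ hv) huv fun z hz' huz => ?_⟩
    · rcases List.mem_cons.1 hz with rfl | hz
      · exact absurd hxz (lt_irrefl _)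
      · rcases List.mem_cons.1 hz with rfl | hz
        · exact le_rfl
        · exact (List.rel_of_pairwise_cons hp.of_cons hz).le
    · rcases List.mem_cons.1 hz' with rfl | hz'
      · exact absurd huz (hx u hu).not_gt
      · exact hz z hz' huz

/-- **drift bound**: the sum over all admissible blocks `Y` (first point in `F`, consecutive points
related by `Lk`) of `c Y * ∏_Y θ`. -/
theorem drift (H : Cov X c g) (Tt : Tree X g ℓ L r a) (ha : ∀ v, 0 ≤ a v) (hB0 : ∀ x, 0 ≤ B x)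
    (hB : ∀ x ∈ X, c {x} ≤ B x) (hw : ∀ i, 0 ≤ w i) (hA : 0 ≤ wA) (hwB : 0 ≤ wB)
    (hs : ∑ i ∈ range L, w i + wA + wB ≤ 1) {θ : ι → ℝ} (hθ : ∀ v, 0 ≤ θ v)
    (F : ι → Prop) [DecidablePred F] (Lk : ι → ι → Prop) [DecidableRel Lk] {κ : ℝ} (hκ : κ < 1)
    (hk : ∀ u ∈ X, ∑ v ∈ X with u < v ∧ Lk u v, θ v * eta ℓ L r w a wA u v ≤ κ)
    (𝒴 : Finset (Finset ι)) (h1 : ∀ Y ∈ 𝒴, Y ⊆ X ∧ Y.Nonempty)
    (h2 : ∀ Y ∈ 𝒴, ∀ x ∈ Y, (∀ z ∈ Y, x ≤ z) → F x)
    (h3 : ∀ Y ∈ 𝒴, ∀ u ∈ Y, ∀ v ∈ Y, u < v → (∀ z ∈ Y, u < z → v ≤ z) → Lk u v) :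
    ∑ Y ∈ 𝒴, c Y * ∏ v ∈ Y, θ v ≤ (∑ x ∈ X with F x, θ x * B x ^ wB) / (1 - κ) := by
  set δ : ι → ℝ := fun x => if F x then θ x * B x ^ wB else 0 with hδ
  set η : ι → ι → ℝ := fun u v => if Lk u v then θ v * eta ℓ L r w a wA u v else 0 with hη
  have hδ0 : ∀ x, 0 ≤ δ x := fun x => by
    simp only [hδ]; split_ifs; exacts [mul_nonneg (hθ x) (Real.rpow_nonneg (hB0 x) _), le_rfl]
  have hη0 : ∀ u v, 0 ≤ η u v := fun u v => by
    simp only [hη]; split_ifs; exacts [mul_nonneg (hθ v) (eta_nonneg ha u v), le_rfl]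
  have key := link_sum hδ0 hη0 hκ X fun u hu => le_trans (le_of_eq (by
    rw [← filter_filter, sum_filter (s := X.filter fun v => u < v)])) (hk u hu)
  rw [sum_filter]
  refine le_trans ?_ key
  refine le_trans (sum_le_sum fun Y hY => ?_) (sum_le_sum_of_subset_of_nonneg
    (fun Y hY => mem_powerset.2 (h1 Y hY).1 : 𝒴 ⊆ X.powerset) fun Y _ _ => hd_nonneg hδ0 hη0 _)
  have hg := gm_bound H Tt hB hw hA hwB hs (h1 Y hY).1 (h1 Y hY).2
  have hm : ∀ v, v ∈ Y.sort (· ≤ ·) ↔ v ∈ Y := fun v => mem_sort _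
  have hp : (Y.sort (· ≤ ·)).Pairwise (· < ·) := (Y.sortedLT_sort).pairwise
  have hθY : ∏ v ∈ Y, θ v = ((Y.sort (· ≤ ·)).map θ).prod := by
    rw [← List.prod_toFinset _ (sort_nodup Y _), sort_toFinset]
  rw [hθY]
  generalize Y.sort (· ≤ ·) = l' at hg hm hp
  cases l' with
  | nil => obtain ⟨x, hx⟩ := (h1 Y hY).2; simpa using (hm x).2 hx
  | cons x l =>
    have hF : F x := h2 Y hY x ((hm x).1 List.mem_cons_self) fun z hz => by
      rcases List.mem_cons.1 ((hm z).2 hz) with rfl | hz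
      exacts [le_rfl, (List.rel_of_pairwise_cons hp hz).le]
    have hC := chain_of (Lk := Lk) x l hp fun u hu v hv huv hz =>
      h3 Y hY u ((hm u).1 hu) v ((hm v).1 hv) huv fun z hz' => hz z ((hm z).2 hz')
    simp only [hd, hδ, hη, if_pos hF, ch_ind _ x l hC, ch_mul, ch_pt, List.map_cons,
      List.prod_cons] at hg ⊢
    have := mul_le_mul_of_nonneg_right hg (mul_nonneg (hθ x)
      (List.prod_nonneg fun y hy => by obtain ⟨v, -, rfl⟩ := List.mem_map.1 hy; exact hθ v) :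
        0 ≤ θ x * (l.map θ).prod)
    linarith

end gm

end Crest.Agent.N337.WN
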