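import Crest.Agent.N337.W.B
import Crest.Agent.N337.W.Link
import Crest.Agent.N337.Gas.Loop

/-!
# Row 337, ENG (TP): the drift of the target potential at a fixed level, for one class of loops

`ls p b ψ = ∑_ξ Pw ξ ∑_{g loop of ξ} ψ g * ub b g * ∏_{other loops} (1 - ub b g')`.
`tp1` : if every loop `g` covers the set `cov g` of targets (empty if the birth is not allowed), then
`ls ((∏_{cov g} θ - 1)₊) ≤ Zg * (∑_{F x} θ x * (2 γ x σ)^(wB/2)) / (1 - κ)`.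
-/

set_option autoImplicit false
set_option linter.unusedSectionVars false

namespace Crest.Agent.N337.WN

open Finset Equiv Matrix Function Crest.Agent.N337.Rep Crest.Agent.N337.LY0
open Crest.Agent.N337.Gas (Lp lp ub)
open Crest.Agent.N337.Arc (Fld)

variable {Λ : Type} [Fintype Λ] [DecidableEq Λ] {T : ℕ} [NeZero T] (ex ey : Fin T → Λ)

/-- one-loop sums in the green measure. -/
noncomputable def ls (p : Fin T → ℝ) (b : Fin T × Λ → ℝ) (ψ : Lp T Λ → ℝ) : ℝ :=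
  ∑ ξ, Pw p ξ * ∑ c : Orb (Sg ex ey ξ), ψ (lp ex ey ξ (bp c)) * lw (Sg ex ey ξ) b (bp c)

variable {ex ey} {p : Fin T → ℝ} {b : Fin T × Λ → ℝ} {ψ ψ' : Lp T Λ → ℝ}

lemma ls_mono (hp : ∀ s, 0 ≤ p s ∧ p s ≤ 1) (hb : ∀ v, 0 ≤ b v ∧ b v ≤ 1)
    (h : ∀ ξ v, Pw p ξ ≠ 0 → lw (Sg ex ey ξ) b v ≠ 0 → ψ (lp ex ey ξ v) ≤ ψ' (lp ex ey ξ v)) :
    ls ex ey p b ψ ≤ ls ex ey p b ψ' := by
  refine sum_le_sum fun ξ _ => ?_
  by_cases h1 : Pw p ξ = 0
  · simp [h1]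
  refine mul_le_mul_of_nonneg_left (sum_le_sum fun c _ => ?_) (Pw_nonneg hp ξ)
  by_cases h2 : lw (Sg ex ey ξ) b (bp c) = 0
  · simp [h2]
  exact mul_le_mul_of_nonneg_right (h ξ _ h1 h2) (lw_nonneg _ hb _)

lemma ls_zero : ls ex ey p b (fun _ => 0) = 0 := by simp [ls]

lemma ls_nonneg (hp : ∀ s, 0 ≤ p s ∧ p s ≤ 1) (hb : ∀ v, 0 ≤ b v ∧ b v ≤ 1) (h : ∀ g, 0 ≤ ψ g) :
    0 ≤ ls ex ey p b ψ :=
  (ls_zero (ex := ex) (ey := ey) (p := p) (b := b)).ge.trans (ls_mono hp hb fun _ _ _ _ => h _)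

lemma ls_add : ls ex ey p b (fun g => ψ g + ψ' g) = ls ex ey p b ψ + ls ex ey p b ψ' := by
  simp only [ls, add_mul, sum_add_distrib, mul_add]

lemma ls_mul (a : ℝ) : ls ex ey p b (fun g => ψ g * a) = ls ex ey p b ψ * a := by
  simp only [ls, sum_mul, mul_sum]
  exact sum_congr rfl fun _ _ => sum_congr rfl fun _ _ => by ring

lemma ls_sum {κ : Type} (s : Finset κ) (F : κ → Lp T Λ → ℝ) :
    ls ex ey p b (fun g => ∑ i ∈ s, F i g) = ∑ i ∈ s, ls ex ey p b (F i) := by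
  classical
  induction s using Finset.induction_on with
  | empty => simpa using ls_zero
  | insert i s hi ih => simp only [sum_insert hi, ls_add, ih]

/-- a test function carried by the loops through `v`. -/
lemma ls_pt (v : Fin T × Λ) (h : ∀ g, ψ g ≠ 0 → v ∈ g.2) :
    ls ex ey p b ψ = ∑ ξ, Pw p ξ * (ψ (lp ex ey ξ v) * lw (Sg ex ey ξ) b v) := by
  refine sum_congr rfl fun ξ _ => ?_
  rw [sum_eq_single (o (Sg ex ey ξ) v), Gas.lp_eq_iff.2 (o_bp _), lw_congr _ b (o_bp _)]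
  · intro c _ hc
    by_contra h0
    exact hc ((o_bp c).symm.trans (Gas.mem_obv.1 (h _ (left_ne_zero_of_mul h0))).symm)
  · simp

lemma ub_lp' (b : Fin T × Λ → ℝ) (ξ : Fin T → Bool) (v : Fin T × Λ) :
    ub b (lp ex ey ξ v) = pr (Sg ex ey ξ) b (o _ v) := rfl

section tp
variable {ι : Type} [LinearOrder ι]

/-- `x` is the first element of `Y`. -/
def Fst (x : ι) (Y : Finset ι) : Prop := x ∈ Y ∧ ∀ z ∈ Y, x ≤ z

instance (x : ι) (Y : Finset ι) : Decidable (Fst x Y) := by unfold Fst; infer_instance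

variable {pt : ι → Fin T × Λ} {X : Finset ι} {cov : Lp T Λ → Finset ι} {g : ι → ι → ℝ}

/-- covering sets: inside `X`, on the loop, Green function dominated by `g`. -/
structure Cv (ex ey : Fin T → Λ) (p : Fin T → ℝ) (b : Fin T × Λ → ℝ) (pt : ι → Fin T × Λ)
    (X : Finset ι) (cov : Lp T Λ → Finset ι) (g : ι → ι → ℝ) : Prop where
  inj : Set.InjOn pt X
  sub : ∀ l, cov l ⊆ X
  mem : ∀ l, ∀ x ∈ cov l, pt x ∈ l.2
  g0 : ∀ v u, 0 ≤ g v u
  gr : ∀ l, ∀ v ∈ cov l, ∀ u ∈ cov l, v ≠ u → Gi ex ey p b (pt v) (pt u) ≤ g v u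

/-- rate of the loops with first target `x` that cover `Y`. -/
noncomputable def rt (ex ey : Fin T → Λ) (p : Fin T → ℝ) (b : Fin T × Λ → ℝ)
    (cov : Lp T Λ → Finset ι) (x : ι) (Y : Finset ι) : ℝ :=
  ls ex ey p b (fun l => if Fst x (cov l) ∧ Y ⊆ cov l then 1 else 0) / Zg ex ey p b

lemma rt_nonneg (hp : ∀ s, 0 ≤ p s ∧ p s ≤ 1) (hb : Fld b) (x : ι) (Y : Finset ι) :
    0 ≤ rt ex ey p b cov x Y :=
  div_nonneg (ls_nonneg hp hb.mem fun _ => by split_ifs <;> norm_num) (Zg_pos ex ey hp hb).le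

lemma rt_anti (hp : ∀ s, 0 ≤ p s ∧ p s ≤ 1) (hb : Fld b) (x : ι) {Y' Y : Finset ι} (h : Y' ⊆ Y) :
    rt ex ey p b cov x Y ≤ rt ex ey p b cov x Y' :=
  div_le_div_of_nonneg_right (ls_mono hp hb.mem fun ξ v _ _ => by
    by_cases h1 : Fst x (cov (lp ex ey ξ v)) ∧ Y ⊆ cov (lp ex ey ξ v)
    · rw [if_pos h1, if_pos ⟨h1.1, h.trans h1.2⟩]
    · rw [if_neg h1]; split_ifs <;> norm_num) (Zg_pos ex ey hp hb).le

lemma Cv.n0 (H : Cv ex ey p b pt X cov g) (hp : ∀ s, 0 ≤ p s ∧ p s ≤ 1) (hb : Fld b) (x : ι)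
    (Y : Finset ι) (he : Even Y.card) (hne : Y.Nonempty) (a : ι → ℝ) (ha : ∀ v ∈ Y, 0 < a v)
    (q : ℝ) (hq : ∑ v ∈ Y, ∑ u ∈ Y.erase v, a v * a u * g v u ≤ q) :
    rt ex ey p b cov x Y ≤ 2 ^ Y.card * Real.exp q / ∏ v ∈ Y, a v := by
  have hZ := Zg_pos ex ey hp hb
  by_cases hex : ∃ l, Y ⊆ cov l
  swap
  · rw [rt, show (fun l => if Fst x (cov l) ∧ Y ⊆ cov l then (1 : ℝ) else 0) = fun _ => 0 from
      funext fun l => if_neg fun h => hex ⟨l, h.2⟩, ls_zero, zero_div]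
    exact div_nonneg (by positivity) (prod_pos ha).le
  obtain ⟨l, hl⟩ := hex
  obtain ⟨y, hy⟩ := hne
  have : Nonempty ι := ⟨y⟩
  have hinj : Set.InjOn pt Y := H.inj.mono (coe_subset.2 (hl.trans (H.sub l)))
  have hi : ∀ v ∈ Y, invFunOn pt Y (pt v) = v := fun v hv => hinj.leftInvOn_invFunOn hv
  rw [rt, div_le_iff₀' hZ, ls_pt (pt y) fun l h => H.mem l y
    ((of_not_not fun h' => h (if_neg h')).2 hy)]
  have key := wn0 ex ey hp hb.mem hZ (Y := Y.image pt) (by rwa [card_image_of_injOn hinj])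
    ⟨pt y, mem_image_of_mem _ hy⟩ (a := fun v => a (invFunOn pt Y v))
    (g := fun v u => g (invFunOn pt Y v) (invFunOn pt Y u)) (q := q)
    (by simp only [forall_mem_image]
        exact fun v hv => by rw [hi v hv]; exact ha v hv) (fun _ _ => H.g0 _ _)
    (by simp only [forall_mem_image]
        exact fun v hv u hu h => by
          rw [hi v hv, hi u hu]; exact H.gr l v (hl hv) u (hl hu) fun e => h (e ▸ rfl))
    (by rw [sum_image hinj]
        refine le_trans (le_of_eq (sum_congr rfl fun v hv => ?_)) hq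
        rw [show (Y.image pt).erase (pt v) = (Y.erase v).image pt from ?_,
          sum_image (hinj.mono (coe_subset.2 (erase_subset v Y)))]
        · exact sum_congr rfl fun u hu => by rw [hi v hv, hi u (mem_of_mem_erase hu)]
        · ext z
          simp only [mem_erase, mem_image]
          exact ⟨fun ⟨h1, u, h2, h3⟩ => ⟨u, ⟨fun e => h1 (e ▸ h3.symm), h2⟩, h3⟩,
            fun ⟨u, ⟨h1, h2⟩, h3⟩ => ⟨fun e => h1 (hinj h2 hv (h3.trans e)), u, h2, h3⟩⟩)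
    (fun ξ => (if Fst x (cov (lp ex ey ξ (pt y))) ∧ Y ⊆ cov (lp ex ey ξ (pt y)) then 1 else 0) *
      lw (Sg ex ey ξ) b (pt y)) fun ξ => ?_
  · rwa [card_image_of_injOn hinj, prod_image hinj,
      prod_congr rfl fun v hv => show a (invFunOn pt Y (pt v)) = a v by rw [hi v hv]] at key
  split_ifs with h
  · refine Or.inr ⟨pt y, ?_, (one_mul _).le⟩
    simp only [forall_mem_image]
    exact fun z hz => Gas.mem_obv.1 (H.mem _ z (h.2 hz))
  · exact Or.inl (zero_mul _).le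

lemma Cv.toCov (H : Cv ex ey p b pt X cov g) (hp : ∀ s, 0 ≤ p s ∧ p s ≤ 1) (hb : Fld b) (x : ι) :
    Cov X (fun Y => min 1 (rt ex ey p b cov x Y)) g where
  nonneg Y := le_min zero_le_one (rt_nonneg hp hb x Y)
  le_one _ := min_le_left _ _
  anti _ _ h _ _ := min_le_min_left _ (rt_anti hp hb x h)
  g0 := H.g0
  n0 Y _ he hne a ha q hq := (min_le_right _ _).trans (H.n0 hp hb x Y he hne a ha q hq)

variable {ℓ : ι → ι → ℕ} {L : ℕ} {r w : ℕ → ℝ} {a : ι → ℝ} {wA wB : ℝ}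

lemma Cv.pair (H : Cv ex ey p b pt X cov g) (hp : ∀ s, 0 ≤ p s ∧ p s ≤ 1) (hb : Fld b)
    (Tt : Tree X g ℓ L r a) (x : ι) {Y : Finset ι} (hY : Y ⊆ X) {u v : ι} (hu : u ∈ Y)
    (hv : v ∈ Y) (huv : u ≠ v) : rt ex ey p b cov x Y ≤ 1 := by
  have h6 : ∀ z ∈ X, 0 < a z := fun z hz => lt_of_lt_of_le (by norm_num) (Tt.age z hz)
  have hs : ({u, v} : Finset ι) ⊆ X := insert_subset (hY hu) (singleton_subset_iff.2 (hY hv))
  have hr : ∀ z ∈ ({u, v} : Finset ι), ∑ y ∈ ({u, v} : Finset ι).erase z, a z * a y * g z y ≤ 1 :=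
    fun z hz => le_trans (sum_le_sum_of_subset_of_nonneg (erase_subset_erase z hs) fun y hy _ =>
      mul_nonneg (mul_nonneg (h6 z (hs hz)).le (h6 y (mem_of_mem_erase hy)).le) (H.g0 z y))
      (Tt.arow z (hs hz))
  refine (rt_anti hp hb x (insert_subset hu (singleton_subset_iff.2 hv))).trans
    ((H.n0 hp hb x {u, v} (by rw [card_pair huv]; decide) (insert_nonempty _ _) a
      (fun z hz => h6 z (hs hz)) 2 ((sum_le_sum hr).trans (by simp [card_pair huv]))).trans ?_)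
  rw [card_pair huv, prod_pair huv, div_le_one (mul_pos (h6 u (hY hu)) (h6 v (hY hv)))]
  have e : Real.exp 2 = Real.exp 1 ^ 2 := by rw [← Real.exp_nat_mul]; norm_num
  have h1 : Real.exp 1 ^ 2 ≤ 3 ^ 2 :=
    pow_le_pow_left₀ (Real.exp_pos 1).le (by linarith [Real.exp_one_lt_d9]) 2
  nlinarith [Tt.age u (hY hu), Tt.age v (hY hv)]

lemma Cv.one (H : Cv ex ey p b pt X cov g) (hp : ∀ s, 0 ≤ p s ∧ p s ≤ 1) (hb : Fld b) {σ : ℝ}
    (hσ0 : 0 ≤ σ) (hσ : ∀ l, (cov l).Nonempty → ub b l ≤ σ) (x : ι) :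
    min 1 (rt ex ey p b cov x {x}) ≤ 2 * σ := by
  rcases le_or_gt (1 / 2) σ with h | h
  · exact (min_le_left _ _).trans (by linarith)
  refine (min_le_right _ _).trans ?_
  rw [rt, div_le_iff₀' (Zg_pos ex ey hp hb), ls_pt (pt x) fun l h => H.mem l x
    ((of_not_not fun h' => h (if_neg h')).1.1)]
  refine (b1 ex ey hp hb.mem hσ0 (by linarith) _ fun ξ => ?_).trans
    (mul_le_mul_of_nonneg_left ?_ (Zg_pos ex ey hp hb).le)
  · split_ifs with h'
    · exact Or.inr ⟨pt x, hσ _ ⟨x, h'.1.1⟩, (one_mul _).le⟩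
    · exact Or.inl (zero_mul _).le
  · rw [div_le_iff₀ (by linarith)]; nlinarith

/-- **(TP1)** the drift of the target potential for one class of loops (weight at most `σ`).
`γ x` bounds the rate of the loops with first target `x`; for FREE points (`θ x ≤ 1`) take `γ x = 1`. -/
theorem tp1 (H : Cv ex ey p b pt X cov g) (hp : ∀ s, 0 ≤ p s ∧ p s ≤ 1) (hb : Fld b)
    (Tt : Tree X g ℓ L r a) (ha : ∀ v, 0 ≤ a v) (hw : ∀ i, 0 ≤ w i) (hA : 0 ≤ wA) (hwB : 0 ≤ wB)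
    (hs : ∑ i ∈ range L, w i + wA + wB ≤ 1) {θ γ : ι → ℝ} (hθ : ∀ v, 0 ≤ θ v) (hγ0 : ∀ v, 0 ≤ γ v)
    (hγ : ∀ x ∈ X, (θ x ≤ 1 ∧ 1 ≤ γ x) ∨ (γ x ≤ 1 ∧
      ls ex ey p b (fun l => if Fst x (cov l) then 1 else 0) ≤ Zg ex ey p b * γ x))
    {σ : ℝ} (hσ0 : 0 ≤ σ) (hσ : ∀ l, (cov l).Nonempty → ub b l ≤ σ)
    (F : ι → Prop) [DecidablePred F] (Lk : ι → ι → Prop) [DecidableRel Lk] {κ : ℝ} (hκ : κ < 1)
    (hk : ∀ u ∈ X, ∑ v ∈ X with u < v ∧ Lk u v, θ v * eta ℓ L r w a wA u v ≤ κ)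
    (hF : ∀ l x, Fst x (cov l) → F x)
    (hL : ∀ l, ∀ u ∈ cov l, ∀ v ∈ cov l, u < v → (∀ z ∈ cov l, u < z → v ≤ z) → Lk u v) :
    ls ex ey p b (fun l => max (∏ x ∈ cov l, θ x - 1) 0) ≤
      Zg ex ey p b * ((∑ x ∈ X with F x, θ x * (2 * γ x * σ) ^ (wB / 2)) / (1 - κ)) := by
  classical
  have hZ := Zg_pos ex ey hp hb
  set 𝒴 : ι → Finset (Finset ι) := fun x => X.powerset.filter fun Y =>
    Fst x Y ∧ ¬ (Y = {x} ∧ θ x ≤ 1) ∧
      ∀ u ∈ Y, ∀ v ∈ Y, u < v → (∀ z ∈ Y, u < z → v ≤ z) → Lk u v with h𝒴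
  have hθY : ∀ Y : Finset ι, 0 ≤ ∏ x ∈ Y, θ x := fun Y => prod_nonneg fun x _ => hθ x
  have r1 : ∀ x, rt ex ey p b cov x {x} =
      ls ex ey p b (fun l => if Fst x (cov l) then 1 else 0) / Zg ex ey p b := fun x => by
    rw [rt]; congr 2; funext l
    exact if_congr ⟨fun h => h.1, fun h => ⟨h, singleton_subset_iff.2 h.1⟩⟩ rfl rfl
  have step1 : ls ex ey p b (fun l => max (∏ x ∈ cov l, θ x - 1) 0) ≤
      ∑ x ∈ X with F x, ∑ Y ∈ 𝒴 x, Zg ex ey p b * (rt ex ey p b cov x Y * ∏ z ∈ Y, θ z) := by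
    simp only [rt, ← mul_assoc, mul_div_cancel₀ _ hZ.ne', ← ls_mul, ← ls_sum]
    refine ls_mono hp hb.mem fun ξ v _ _ => ?_
    generalize lp ex ey ξ v = l
    have hn : ∀ x Y, 0 ≤ (if Fst x (cov l) ∧ Y ⊆ cov l then (1 : ℝ) else 0) * ∏ z ∈ Y, θ z :=
      fun x Y => mul_nonneg (by split_ifs <;> norm_num) (hθY Y)
    refine max_le ?_ (sum_nonneg fun x _ => sum_nonneg fun Y _ => hn x Y)
    by_cases h1 : ∏ x ∈ cov l, θ x ≤ 1
    · exact (sub_nonpos.2 h1).trans (sum_nonneg fun x _ => sum_nonneg fun Y _ => hn x Y)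
    have hne : (cov l).Nonempty := nonempty_iff_ne_empty.2 fun h => h1 (by simp [h])
    have hx : Fst ((cov l).min' hne) (cov l) := ⟨min'_mem _ _, fun z hz => min'_le _ z hz⟩
    generalize (cov l).min' hne = x at hx
    refine le_trans ?_ (single_le_sum (fun x _ => sum_nonneg fun Y _ => hn x Y)
      (mem_filter.2 ⟨H.sub l hx.1, hF l x hx⟩ : x ∈ X.filter F))
    refine le_trans ?_ (single_le_sum (fun Y _ => hn x Y) (mem_filter.2
      ⟨mem_powerset.2 (H.sub l), hx, fun h => h1 (by simpa [h.1] using h.2), hL l⟩ : cov l ∈ 𝒴 x))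
    rw [if_pos ⟨hx, subset_rfl⟩]; linarith
  refine step1.trans ?_
  rw [sum_div, mul_sum]
  refine sum_le_sum fun x hx => ?_
  have hxX := (mem_filter.1 hx).1
  rw [← mul_sum]
  refine mul_le_mul_of_nonneg_left ?_ hZ.le
  have hle : ∀ Y ∈ 𝒴 x, rt ex ey p b cov x Y ≤ 1 := by
    intro Y hY
    obtain ⟨h1, h2, h3, -⟩ := mem_filter.1 hY
    by_cases h4 : Y = {x}
    · rcases hγ x hxX with h | h
      · exact absurd ⟨h4, h.1⟩ h3
      · rw [h4, r1, div_le_one hZ]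
        exact h.2.trans (mul_le_of_le_one_right hZ.le h.1)
    · obtain ⟨v, hv, hvx⟩ : ∃ v ∈ Y, v ≠ x := by
        by_contra hh; push Not at hh
        exact h4 (eq_singleton_iff_unique_mem.2 ⟨h2.1, hh⟩)
      exact H.pair hp hb Tt x (mem_powerset.1 h1) hv h2.1 hvx
  have hB : min 1 (rt ex ey p b cov x {x}) ≤ √(2 * γ x * σ) := by
    have h0 := ((H.toCov hp hb x).nonneg {x})
    have h1 := H.one hp hb hσ0 hσ x
    have h2 : min 1 (rt ex ey p b cov x {x}) ≤ γ x := by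
      rcases hγ x hxX with h | h
      · exact (min_le_left _ _).trans h.2
      · exact (min_le_right _ _).trans (by rw [r1, div_le_iff₀' hZ]; exact h.2)
    refine Real.le_sqrt_of_sq_le ?_
    have := mul_le_mul h2 h1 h0 (hγ0 x)
    nlinarith
  have key := drift (H.toCov hp hb x) Tt ha (B := fun z => if z = x then √(2 * γ x * σ) else 1)
    (fun z => by split_ifs; exacts [Real.sqrt_nonneg _, zero_le_one])
    (fun z _ => by split_ifs with h; exacts [by rw [h]; exact hB, min_le_left _ _]) hw hA hwB hs hθ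
    (fun z => z = x) Lk hκ hk (𝒴 x)
    (fun Y hY => ⟨mem_powerset.1 (mem_filter.1 hY).1, x, (mem_filter.1 hY).2.1.1⟩)
    (fun Y hY z hz h => le_antisymm (h x (mem_filter.1 hY).2.1.1) ((mem_filter.1 hY).2.1.2 z hz))
    fun Y hY => (mem_filter.1 hY).2.2.2
  rw [filter_eq' X x, if_pos hxX, sum_singleton, if_pos rfl, Real.sqrt_eq_rpow,
    ← Real.rpow_mul (mul_nonneg (mul_nonneg zero_le_two (hγ0 x)) hσ0),
    show 1 / 2 * wB = wB / 2 by ring] at key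
  exact le_trans (sum_le_sum fun Y hY => by rw [min_eq_right (hle Y hY)]) key

end tp

end Crest.Agent.N337.WN
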