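import Crest.Agent.N337.W.Env
import Crest.Agent.N337.E.Loop
import Crest.Agent.N337.L4.Ret2

/-!
# Row 337, ENG: **(TP)** covering a set of targets by allowed births

`cov a l` = the targets covered by the birth `l` after the past `a` (empty if it is not allowed),
`covL cov [] l` = all targets covered along the chronological list `l`, `μ` = marks.
`tp` : `BM (1{X covered} * marks) ≤ exp (..) / ∏_X θ`.
`One.ret`, `One.exit` : the one-point hypotheses from Green bounds at the top level `Y`.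
-/

set_option autoImplicit false
set_option linter.unusedSectionVars false

namespace Crest.Agent.N337.WN

open Finset Equiv Matrix Function Crest.Agent.N337.Rep Crest.Agent.N337.LY0 Crest.Agent.N337.Arc
open Crest.Agent.N337.Gas (Lp lp ub pts obv qq wd)
open Crest.Agent.N337.Bi (bs BM)

section lists
variable {Γ ι : Type} [DecidableEq Γ] [DecidableEq ι]

/-- the targets covered along the list `l` started with the past `a`. -/
def covL (cov : List Γ → Γ → Finset ι) : List Γ → List Γ → Finset ι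
  | _, [] => ∅
  | a, g :: l => cov a g ∪ covL cov (a ++ [g]) l

variable {cov : List Γ → Γ → Finset ι}

lemma mem_covL {x : ι} (a l : List Γ) :
    x ∈ covL cov a l ↔ ∃ l₁ g l₂, l = l₁ ++ g :: l₂ ∧ x ∈ cov (a ++ l₁) g := by
  induction l generalizing a with
  | nil => simp [covL]
  | cons g l ih =>
    rw [covL, mem_union, ih]
    constructor
    · rintro (h | ⟨l₁, g', l₂, rfl, h⟩)
      · exact ⟨[], g, l, rfl, by simpa using h⟩
      · exact ⟨g :: l₁, g', l₂, rfl, by simpa using h⟩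
    · rintro ⟨_ | ⟨y, l₁⟩, g', l₂, e, h⟩ <;> obtain ⟨rfl, rfl⟩ := List.cons.inj e
      · exact Or.inl (by simpa using h)
      · exact Or.inr ⟨l₁, g', l₂, rfl, by simpa using h⟩

lemma Ph_cov (θ : ι → ℝ) (μ : List Γ → Γ → ℝ) (a l : List Γ)
    (hd : l.Pairwise fun g g' => ∀ a a', Disjoint (cov a g) (cov a' g')) :
    Bi.Ph (fun a g => μ a g * ∏ x ∈ cov a g, θ x) a l = Bi.Ph μ a l * ∏ x ∈ covL cov a l, θ x := by
  induction l generalizing a with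
  | nil => simp [Bi.Ph, covL]
  | cons g l ih =>
    rw [Bi.Ph, Bi.Ph, covL, ih _ hd.of_cons, prod_union]
    · ring
    · refine disjoint_left.2 fun x h1 h2 => ?_
      obtain ⟨l₁, g', l₂, rfl, h⟩ := (mem_covL _ _).1 h2
      exact disjoint_left.1 (List.rel_of_pairwise_cons hd (by simp) _ _) h1 h

lemma Ph_one (a l : List Γ) : Bi.Ph (fun _ _ => 1) a l = 1 := by
  induction l generalizing a with
  | nil => rfl
  | cons g l ih => rw [Bi.Ph, ih, mul_one]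

lemma Ph_map (f : Γ → ℝ) (a l : List Γ) : Bi.Ph (fun _ g => f g) a l = (l.map f).prod := by
  induction l generalizing a with
  | nil => rfl
  | cons g l ih => rw [Bi.Ph, ih]; rfl

end lists

variable {Λ : Type} [Fintype Λ] [DecidableEq Λ] {T : ℕ} [NeZero T] (ex ey : Fin T → Λ)
  {p : Fin T → ℝ} {b : Fin T × Λ → ℝ} {Y : ℝ}

lemma Kb_nonneg (hp : ∀ s, 0 ≤ p s ∧ p s ≤ 1) (v u : Fin T × Λ) : 0 ≤ Kb ex ey p v u := by
  obtain ⟨r, y⟩ := v
  obtain ⟨s, x⟩ := u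
  rw [Kb_apply]
  have := hp s
  split_ifs <;> linarith

/-- the Green function is increasing in the field. -/
theorem Gi_mono (hp : ∀ s, 0 ≤ p s ∧ p s ≤ 1) (hb : Fld b) {b' : Fin T × Λ → ℝ} (hb' : Fld b')
    (h : ∀ v, b v ≤ b' v) (v u : Fin T × Λ) : Gi ex ey p b v u ≤ Gi ex ey p b' v u := by
  have h1 := Gi_eq ex ey (Zg_pos ex ey hp hb).ne'
  have h2 := Gi_mul ex ey (Zg_pos ex ey hp hb').ne'
  have e : Gi ex ey p b' - Gi ex ey p b =
      Gi ex ey p b' * (Kb ex ey p * diagonal (b' - b)) * Gi ex ey p b := by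
    have h3 : Kb ex ey p * diagonal b * Gi ex ey p b = Gi ex ey p b - 1 := eq_sub_of_add_eq' h1.symm
    rw [show diagonal (b' - b) = diagonal b' - diagonal b from (diagonal_sub b' b).symm,
      Matrix.mul_sub, Matrix.mul_sub, Matrix.sub_mul, h2, Matrix.mul_assoc, h3, Matrix.sub_mul,
      Matrix.mul_sub, Matrix.one_mul, Matrix.mul_one]
    abel
  refine sub_nonneg.1 ?_
  rw [← Matrix.sub_apply, e, mul_apply]
  refine sum_nonneg fun w _ => mul_nonneg ?_ (Gi_nonneg ex ey hp hb _ _)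
  rw [mul_apply]
  refine sum_nonneg fun z _ => mul_nonneg (Gi_nonneg ex ey hp hb' _ _) ?_
  rw [mul_diagonal]
  exact mul_nonneg (Kb_nonneg ex ey hp _ _) (sub_nonneg.2 (h w))

/-- the Green function of the model with the point set `O` pinned (coins `ξ`) and killed. -/
noncomputable def Gc (p : Fin T → ℝ) (b : Fin T × Λ → ℝ) (O : Finset (Fin T × Λ))
    (ξ : Fin T → Bool) : Matrix (Fin T × Λ) (Fin T × Λ) ℝ :=
  Gi ex ey (pin p (tch ex ey O) ξ) (kill b O)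

lemma Gc_mono (hp : ∀ s, 0 ≤ p s ∧ p s ≤ 1) (hb : ∀ v, 0 ≤ b v ∧ b v ≤ 1) (h1 : Y < 1) {s : ℝ}
    (hs : s ∈ Set.Ioo 0 Y) (O : Finset (Fin T × Λ)) (ξ : Fin T → Bool) (v u : Fin T × Λ) :
    Gc ex ey p (bs b s) O ξ v u ≤ Gc ex ey p (bs b Y) O ξ v u :=
  Gi_mono ex ey (pin_mem hp _ ξ) ((Bi.bs_fld hb hs.1.le (hs.2.trans h1)).kill O)
    ((Bi.bs_fld hb (hs.1.trans hs.2).le h1).kill O) (fun w => by
      unfold kill; split_ifs; exacts [le_rfl, Bi.bs_mono (fun v => (hb v).1) hs.2.le w]) v u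

open Classical in
/-- one-point bound for the class `S` of loops in the child models of the past `A`. -/
def One (p : Fin T → ℝ) (b : Fin T × Λ → ℝ) (Y : ℝ) (A : Finset (Lp T Λ)) (S : Lp T Λ → Prop)
    (γ : ℝ) : Prop :=
  qq ex ey p A ≠ 0 → ∀ s ∈ Set.Ioo 0 Y,
    ls ex ey (Gas.pin ex ey p A) (kill (bs b s) (pts A)) (fun l => if S l then 1 else 0) ≤
      Zg ex ey (Gas.pin ex ey p A) (kill (bs b s) (pts A)) * γ

variable {ex ey} {A : Finset (Lp T Λ)} {S : Lp T Λ → Prop} {γ : ℝ} {x : Fin T × Λ}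

lemma disj_of_lw {O : Finset (Fin T × Λ)} {ξ : Fin T → Bool} {v : Fin T × Λ}
    (h : lw (Sg ex ey ξ) (kill b O) v ≠ 0) : Disjoint (obv ex ey ξ v) O :=
  disjoint_left.2 fun u h1 h2 => h (by
    rw [lw_eq, pr_zero (a := kill b O) (Gas.mem_obv.1 h1) (if_pos h2), zero_mul])

/-- returns to the point. -/
theorem One.ret (hp : ∀ s, 0 ≤ p s ∧ p s ≤ 1) (hb : ∀ v, 0 ≤ b v ∧ b v ≤ 1) (h1 : Y < 1)
    (h0 : 0 ≤ γ) (hx : ∀ l, S l → x ∈ l.2)
    (hG : ∀ ξ, Pw p ξ ≠ 0 → A ⊆ Gas.L ex ey ξ → Disjoint (obv ex ey ξ x) (pts A) →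
      S (lp ex ey ξ x) → Gc ex ey p (bs b Y) (pts A) ξ x x - 1 ≤ γ) : One ex ey p b Y A S γ := by
  classical
  intro hq s hs
  have hp' := Gas.pin_mem (ex := ex) (ey := ey) hp A
  have hb' := (Bi.bs_fld hb hs.1.le (hs.2.trans h1)).kill (pts A)
  have hZ := (Zg_pos ex ey hp' hb').le
  by_cases hex : ∃ ξ, Pw p ξ ≠ 0 ∧ A ⊆ Gas.L ex ey ξ ∧ Disjoint (obv ex ey ξ x) (pts A) ∧
    S (lp ex ey ξ x)
  · obtain ⟨ξ, k1, k2, k3, k4⟩ := hex
    refine (b0c ex ey hp' hb' x _ (fun l h => hx l (of_not_not fun k => h (if_neg k)))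
      fun l => by split_ifs <;> norm_num).trans (mul_le_mul_of_nonneg_left ?_ hZ)
    rw [gas_pin p k2]
    exact (sub_le_sub_right (Gc_mono ex ey hp hb h1 hs _ ξ x x) 1).trans (hG ξ k1 k2 k3 k4)
  · refine le_trans (ls_mono (ψ' := fun _ => 0) hp' hb'.mem fun ξ v k1 k2 => (if_neg fun k3 => ?_).le)
      (ls_zero.trans_le (mul_nonneg hZ h0))
    have e : lp ex ey ξ v = lp ex ey ξ x := Gas.eq_lp (Gas.lp_mem_L ξ v) (hx _ k3)
    obtain ⟨k4, k5⟩ := Gas.sub_L_of_pin hq k1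
    exact hex ⟨ξ, k4, k5, by rw [← Gas.lp_snd, ← e]; exact disj_of_lw k2, e ▸ k3⟩

/-- exits through `Out`. -/
theorem One.exit (hp : ∀ s, 0 ≤ p s ∧ p s ≤ 1) (hb : ∀ v, 0 ≤ b v ∧ b v ≤ 1) (h1 : Y < 1)
    (h0 : 0 ≤ γ) (h2 : γ ≤ 1 / 2) (hx : ∀ l, S l → x ∈ l.2) (Out : Fin T × Λ → Prop)
    (hG : ∀ ξ, Pw p ξ ≠ 0 → A ⊆ Gas.L ex ey ξ → Disjoint (obv ex ey ξ x) (pts A) →
      S (lp ex ey ξ x) → ∃ n, Exit ex ey Out x n ξ ∧
        Gc ex ey p (bs b Y) (pts A ∪ exA ex ey x n ξ) ξ x (arc ex ey x ξ (n + 1)) ≤ γ) :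
    One ex ey p b Y A S (2 * γ) := by
  classical
  intro hq s hs
  obtain ⟨ξ0, -, hA⟩ := Gas.qq_supp hq
  have hb' := Bi.bs_fld hb hs.1.le (hs.2.trans h1)
  rw [gas_pin p hA]
  refine (b2c ex ey hp hb' h0 (by linarith) (pts A) ξ0 Out x _
    (fun l h => hx l (of_not_not fun k => h (if_neg k))) (fun l => by split_ifs <;> norm_num)
    fun ξ k1 k2 k3 => ?_).trans
      (mul_le_mul_of_nonneg_left ?_ (Zg_pos ex ey (pin_mem hp _ _) (hb'.kill _)).le)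
  · rw [← gas_pin p hA] at k1
    obtain ⟨k4, k5⟩ := Gas.sub_L_of_pin hq k1
    obtain ⟨n, k6, k7⟩ := hG ξ k4 k5 k3 (of_not_not fun k => by simp [k] at k2)
    exact ⟨n, k6, (Gc_mono ex ey hp hb h1 hs _ ξ _ _).trans k7⟩
  · rw [div_le_iff₀ (by linarith)]; nlinarith

/-- the dyadic winding classes. -/
def Cls (j : ℕ) (l : Lp T Λ) : Prop := 2 ^ j ≤ wd l ∧ wd l < 2 ^ (j + 1)

instance (j : ℕ) (l : Lp T Λ) : Decidable (Cls j l) := by unfold Cls; infer_instance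

/-- a loop of large winding leaves a small set. -/
lemma exit_of_wd {Out : Fin T × Λ → Prop} [DecidablePred Out] {ξ : Fin T → Bool} (hx : ¬ Out x)
    (h : (univ.filter fun y => ¬ Out (0, y)).card < wd (lp ex ey ξ x)) :
    ∃ n, Exit ex ey Out x n ξ := by
  obtain ⟨y, h1, h2⟩ := exists_mem_notMem_of_card_lt_card h
  exact exists_exit hx (Gas.mem_obv.1 (mem_filter.1 h1).2) (by simpa using h2)

section tp
variable {ι : Type} [LinearOrder ι] {pt : ι → Fin T × Λ} {X : Finset ι} {g : ι → ι → ℝ}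
  {ℓ : ι → ι → ℕ} {L : ℕ} {r w : ℕ → ℝ} {a : ι → ℝ} {wA wB κ : ℝ} {θ : ι → ℝ}

/-- the static data of (TP): tree, weights of the geometric mean, multipliers, links. -/
structure Tgt (X : Finset ι) (g : ι → ι → ℝ) (ℓ : ι → ι → ℕ) (L : ℕ) (r w : ℕ → ℝ) (a : ι → ℝ)
    (wA wB κ : ℝ) (θ : ι → ℝ) (Lk : ι → ι → Prop) [DecidableRel Lk] : Prop where
  tree : Tree X g ℓ L r a
  g0 : ∀ v u, 0 ≤ g v u
  ha : ∀ v, 0 ≤ a v
  hw : ∀ i, 0 ≤ w i
  hA : 0 ≤ wA
  hB : 0 < wB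
  hs : ∑ i ∈ range L, w i + wA + wB ≤ 1
  hθ : ∀ v, 0 < θ v
  hκ : κ < 1
  hk : ∀ u ∈ X, ∑ v ∈ X with u < v ∧ Lk u v, θ v * eta ℓ L r w a wA u v ≤ κ

/-- **(TP)** -/
theorem tp (hp : ∀ s, 0 ≤ p s ∧ p s ≤ 1) (hb : ∀ v, 0 ≤ b v ∧ b v ≤ 1) (h0 : 0 ≤ Y) (h1 : Y < 1)
    {Lk : ι → ι → Prop} [DecidableRel Lk] (D : Tgt X g ℓ L r w a wA wB κ θ Lk)
    (inj : Set.InjOn pt X)
    {cov : List (Lp T Λ) → Lp T Λ → Finset ι} (sub : ∀ a l, cov a l ⊆ X)
    (mem : ∀ a l, ∀ x ∈ cov a l, pt x ∈ l.2)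
    (hL : ∀ a l, ∀ u ∈ cov a l, ∀ v ∈ cov a l, u < v → (∀ z ∈ cov a l, u < z → v ≤ z) → Lk u v)
    (hG : ∀ (a : List (Lp T Λ)) ξ l, Pw p ξ ≠ 0 → a.toFinset ⊆ Gas.L ex ey ξ → ∀ v ∈ cov a l,
      ∀ u ∈ cov a l, v ≠ u → Gc ex ey p (bs b Y) (pts a.toFinset) ξ (pt v) (pt u) ≤ g v u)
    {J : ℕ} (hJ : ∀ a l, (cov a l).Nonempty → ub b l ≠ 0 → wd l < 2 ^ J)
    {μ : List (Lp T Λ) → Lp T Λ → ℝ} (hμ : ∀ a l, 0 ≤ μ a l ∧ μ a l ≤ 1) {m : ℕ → ℝ}
    (hm0 : ∀ j, 0 ≤ m j) (hm : ∀ a l j, (cov a l).Nonempty → Cls j l → μ a l ≤ m j)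
    (F : ℕ → ι → Prop) [∀ j, DecidablePred (F j)]
    (hF : ∀ a l j x, Cls j l → Fst x (cov a l) → F j x) {γ : ℕ → ι → ℝ} (hγ0 : ∀ j x, 0 ≤ γ j x)
    (hγ : ∀ j < J, ∀ x ∈ X, F j x → (θ x ≤ 1 ∧ 1 ≤ γ j x) ∨ (γ j x ≤ 1 ∧ ∀ a : List (Lp T Λ),
      One ex ey p b Y a.toFinset (fun l => Cls j l ∧ Fst x (cov a l)) (γ j x))) :
    BM ex ey p b Y (fun _ l => if X ⊆ covL cov [] l then Bi.Ph μ [] l else 0) ≤
      Real.exp (4 * (∑ j ∈ range J, m j * ∑ x ∈ X with F j x, θ x * (2 * γ j x) ^ (wB / 2)) /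
        ((1 - κ) * wB)) / ∏ x ∈ X, θ x := by
  classical
  have hP : 0 < ∏ x ∈ X, θ x := prod_pos fun x _ => D.hθ x
  have hκ := sub_pos.2 D.hκ
  have hB := D.hB
  have hθY : ∀ Z : Finset ι, 0 ≤ ∏ x ∈ Z, θ x := fun Z => prod_nonneg fun x _ => (D.hθ x).le
  have hS : ∀ j, 0 ≤ ∑ x ∈ X with F j x, θ x * (2 * γ j x) ^ (wB / 2) := fun j =>
    sum_nonneg fun x _ => mul_nonneg (D.hθ x).le (Real.rpow_nonneg (by linarith [hγ0 j x]) _)
  have key := Bi.smL (ex := ex) (ey := ey) hp hb h0 h1.le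
    (φ := fun a l => μ a l * ∏ x ∈ cov a l, θ x)
    (ψ := fun a l => μ a l * max (∏ x ∈ cov a l, θ x - 1) 0)
    (fun a l => mul_nonneg (hμ a l).1 (hθY _)) (fun a l => mul_nonneg (hμ a l).1 (le_max_right _ _))
    (fun a l => by
      have := mul_le_mul_of_nonneg_left (le_max_left (∏ x ∈ cov a l, θ x - 1) 0) (hμ a l).1
      linarith [(hμ a l).2])
    (J := J) (fun a l h => hJ a l (nonempty_iff_ne_empty.2 fun k => h (by simp [k])))
    (C := fun j => m j * (∑ x ∈ X with F j x, θ x * (2 * γ j x) ^ (wB / 2)) / (1 - κ))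
    (fun j => div_nonneg (mul_nonneg (hm0 j) (hS j)) hκ.le) (α := wB / 2) (by linarith) ?_
  · rw [le_div_iff₀' hP, BM, ← Bi.Dat.MM_mul]
    refine le_trans (Bi.Dat.MM_mono (Bi.LD_ok hb h0 h1.le) (Pw_nonneg hp) fun ξ l _ hl => ?_)
      (key.trans (le_of_eq ?_))
    · split_ifs with h
      · rw [Ph_cov θ μ [] l (hl.1.imp_of_mem fun {g g'} k1 k2 k a a' => disjoint_left.2
          fun x k3 k4 => k (Gas.L_eq (hl.2 g k1).1 (hl.2 g' k2).1 (mem _ _ x k3) (mem _ _ x k4))),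
          mul_comm, subset_antisymm (fun x hx => ?_) h]
        obtain ⟨l₁, g, l₂, -, k⟩ := (mem_covL _ _).1 hx
        exact sub _ _ k
      · rw [mul_zero]
        exact Bi.Ph_nn (fun a l => mul_nonneg (hμ a l).1 (hθY _)) _ _
    · rw [← sum_div]; congr 1; field_simp; ring
  intro a _ _ hq s hs j hj
  obtain ⟨ξ0, k0, hA⟩ := Gas.qq_supp hq
  have hp' := Gas.pin_mem (ex := ex) (ey := ey) hp a.toFinset
  have hb' := (Bi.bs_fld hb hs.1.le (hs.2.trans h1)).kill (pts a.toFinset)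
  have hZ := (Zg_pos ex ey hp' hb').le
  set cv : Lp T Λ → Finset ι := fun l => if Cls j l then cov a l else ∅ with hcv
  have hc : ∀ {l x}, x ∈ cv l → Cls j l ∧ cv l = cov a l := fun {l x} h => by
    by_cases k : Cls j l
    · exact ⟨k, if_pos k⟩
    · simp [hcv, k] at h
  have H : Cv ex ey (Gas.pin ex ey p a.toFinset) (kill (bs b s) (pts a.toFinset)) pt X cv g :=
    ⟨inj, fun l x h => sub a l ((hc h).2 ▸ h), fun l x h => mem a l x ((hc h).2 ▸ h), D.g0,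
      fun l v h u h' k => by
        rw [gas_pin p hA]
        exact (Gc_mono ex ey hp hb h1 hs _ ξ0 _ _).trans
          (hG a ξ0 l k0 hA v ((hc h).2 ▸ h) u ((hc h).2 ▸ h') k)⟩
  have T1 := tp1 H hp' hb' D.tree D.ha D.hw D.hA hB.le D.hs (θ := θ)
    (γ := fun x => if F j x then γ j x else 0) (fun v => (D.hθ v).le)
    (fun v => by split_ifs; exacts [hγ0 j v, le_rfl]) (fun x hx => ?_) (σ := s ^ 2 ^ j)
    (pow_nonneg hs.1.le _) (fun l ⟨x, h⟩ => ?_) (F j) Lk D.hκ D.hk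
    (fun l x h => hF a l j x (hc h.1).1 ((hc h.1).2 ▸ h))
    fun l u hu v hv k k' => hL a l u ((hc hu).2 ▸ hu) v ((hc hu).2 ▸ hv) k ((hc hu).2 ▸ k')
  · refine le_trans (ls_mono (ψ' := fun l => max (∏ x ∈ cv l, θ x - 1) 0 * m j) hp' hb'.mem
      fun ξ v _ _ => ?_) ?_
    · generalize lp ex ey ξ v = l
      split_ifs with k
      · rw [show cv l = cov a l from if_pos k, mul_comm]
        rcases (cov a l).eq_empty_or_nonempty with k' | k'
        · simp [k']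
        · exact mul_le_mul_of_nonneg_left (hm a l j k' k) (le_max_right _ _)
      · exact mul_nonneg (le_max_right _ _) (hm0 j)
    rw [ls_mul]
    refine (mul_le_mul_of_nonneg_right T1 (hm0 j)).trans (le_of_eq ?_)
    rw [sum_congr rfl fun x hx => show _ = θ x * (2 * γ j x) ^ (wB / 2) * s ^ (wB / 2 * 2 ^ j) by
      rw [if_pos (mem_filter.1 hx).2, Real.mul_rpow (by linarith [hγ0 j x]) (pow_nonneg hs.1.le _),
        ← Real.rpow_natCast, ← Real.rpow_mul hs.1.le, mul_assoc, mul_comm (wB / 2)]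
      push_cast; rfl, ← sum_mul, gas_kill]
    ring
  · by_cases k : F j x
    · rw [if_pos k]
      refine (hγ j hj x hx k).imp id fun h => ⟨h.1, le_trans (ls_mono hp' hb'.mem fun ξ v _ _ => ?_)
        (h.2 a hq s hs)⟩
      split_ifs with k1 k2
      exacts [le_rfl, absurd ⟨(hc k1.1).1, (hc k1.1).2 ▸ k1⟩ k2, zero_le_one, le_rfl]
    · rw [if_neg k, mul_zero]
      exact Or.inr ⟨zero_le_one, (ls_mono (ψ' := fun _ => 0) hp' hb'.mem fun ξ v _ _ => (if_neg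
        fun h => k (hF a _ j x (hc h.1).1 ((hc h.1).2 ▸ h))).le).trans ls_zero.le⟩
  · refine (prod_le_prod (fun v _ => (hb'.mem v).1) fun v _ =>
      kill_le (fun v => (Bi.bs_mem hb hs.1.le (hs.2.trans h1).le v).1) _ v).trans ?_
    refine (Bi.ub_bs b s l).trans_le ((mul_le_of_le_one_left (pow_nonneg hs.1.le _)
      (Gas.ub_le_one hb l)).trans (pow_le_pow_of_le_one hs.1.le (hs.2.trans h1).le (hc h).1.1))

end tp

end Crest.Agent.N337.WN
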