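import Crest.Agent.N337.S27.LY0

/-!
# Row 337, ENG: weighted (N0) for ONE loop through an even set of points

`lw π b x` is the weight `∏_{loop of x} b * ∏_{other loops} (1 - ∏ b)`.
`wn0` : the total weight of the configurations in which the loop of `x` contains an even nonempty
set `Y` is at most `det A * 2^|Y| * exp (∑_{u ≠ v ∈ Y} a u a v g v u) / ∏_Y a`,
for all positive weights `a` and every majorant `g` of the Green function `Gi = A⁻¹` on `Y`.
-/

set_option autoImplicit false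
set_option linter.unusedSectionVars false

namespace Crest.Agent.N337.WN

open Finset Equiv Matrix Function Crest.Agent.N337.Rep Crest.Agent.N337.LY0

section gen
variable {S : Type} [Fintype S] [DecidableEq S]

/-- the loop of `x` is alive, all other loops are green. -/
noncomputable def lw (π : Perm S) (b : S → ℝ) (x : S) : ℝ :=
  pr π b (o π x) * ∏ c ∈ univ.erase (o π x), (1 - pr π b c)

lemma lw_nonneg (π : Perm S) {b : S → ℝ} (hb : ∀ v, 0 ≤ b v ∧ b v ≤ 1) (x : S) :
    0 ≤ lw π b x :=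
  mul_nonneg (pr_nonneg (fun v => (hb v).1) _) (prod_nonneg fun c _ =>
    sub_nonneg.2 (pr_le_one (fun v => (hb v).1) (fun v => (hb v).2) c))

lemma lw_congr (π : Perm S) (b : S → ℝ) {x y : S} (h : o π x = o π y) : lw π b x = lw π b y := by
  unfold lw; rw [h]

/-- alternate colouring along a loop. -/
lemma exists_col (π : Perm S) (x : S) (Y : Finset S) (hY : ∀ y ∈ Y, o π y = o π x)
    (he : Even Y.card) : ∃ σ : S → Fin 2, (∀ v, o π v ≠ o π x → σ v = 0) ∧
      (∀ v, v ∉ Y → σ (π v) = σ v) ∧ ∀ v ∈ Y, σ (π v) ≠ σ v := by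
  classical
  set k := per π x with hk
  set n : ℕ → ℕ := fun i => ((range i).filter fun j => π^[j] x ∈ Y).card with hn
  have hns : ∀ i, n (i + 1) = n i + if π^[i] x ∈ Y then 1 else 0 := by
    intro i
    simp only [hn, range_add_one, filter_insert]
    split_ifs with h
    · rw [card_insert_of_notMem (by simp)]
    · rfl
  have hnk : n k = Y.card := by
    have h1 := sum_ob π x (fun v => if v ∈ Y then 1 else 0)
    rw [← card_filter, ← card_filter] at h1
    simp only [hn, hk]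
    rw [← h1]
    congr 1
    ext v
    simp only [mem_filter, mem_univ, true_and]
    exact ⟨fun h => h.2, fun h => ⟨hY v h, h⟩⟩
  have hex : ∀ v, o π v = o π x → ∃ i, i < k ∧ π^[i] x = v := by
    intro v hv
    have hv' : v ∈ ob π (o π x) := mem_filter.2 ⟨mem_univ _, hv⟩
    rw [ob_eq] at hv'
    obtain ⟨i, hi, rfl⟩ := mem_image.1 hv'
    exact ⟨i, mem_range.1 hi, rfl⟩
  set σ : S → Fin 2 := fun v => if h : o π v = o π x then
    ⟨n (hex v h).choose % 2, Nat.mod_lt _ two_pos⟩ else 0 with hσ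
  have hσi : ∀ i, i < k → (σ (π^[i] x)).val = n i % 2 := by
    intro i hi
    have h := o_it π i x
    have h2 := (hex _ h).choose_spec
    simp only [hσ, dif_pos h]
    rw [it_inj h2.1 hi h2.2]
  have hσs : ∀ i, i < k → (σ (π (π^[i] x))).val = n (i + 1) % 2 := by
    intro i hi
    rw [← Function.iterate_succ_apply' π i x]
    rcases (Nat.succ_le_of_lt hi).lt_or_eq with h | h
    · exact hσi _ h
    · have h' : i + 1 = k := h
      rw [Nat.succ_eq_add_one, h', hk, it_per, hnk, Nat.even_iff.1 he]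
      simpa [hn] using hσi 0 (per_pos π x)
  refine ⟨σ, fun v hv => dif_neg hv, fun v hv => ?_, fun v hv => ?_⟩
  · by_cases h : o π v = o π x
    · obtain ⟨i, hi, rfl⟩ := hex v h
      exact Fin.ext (by rw [hσs i hi, hσi i hi, hns, if_neg hv, add_zero])
    · have h' : o π (π v) ≠ o π x := by rwa [o_apply]
      simp only [hσ, dif_neg h, dif_neg h']
  · obtain ⟨i, hi, rfl⟩ := hex v (hY v hv)
    intro h
    have := congrArg Fin.val h
    rw [hσs i hi, hσi i hi, hns, if_pos hv] at this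
    omega

/-- sources on `I`, sinks on `Y \ I`. -/
lemma lw_le (π : Perm S) {b : S → ℝ} (hb : ∀ v, 0 ≤ b v ∧ b v ≤ 1) (x : S) {Y : Finset S}
    (hY : ∀ y ∈ Y, o π y = o π x) (he : Even Y.card) (hne : Y.Nonempty) {a : S → ℝ}
    (ha : ∀ v, 0 ≤ a v) :
    (∏ v ∈ Y, a v) * lw π b x ≤ ∑ I ∈ Y.powerset,
      Ps π (fun v => b v * if v ∈ I then a v else 0) (fun v => if v ∈ Y \ I then a v else 0) b := by
  classical
  obtain ⟨σ, h0, h1, h2⟩ := exists_col π x Y hY he
  set I := Y.filter fun v => σ v = 0 with hI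
  have hs : ∀ (J : Finset S) v, 0 ≤ if v ∈ J then a v else 0 := fun J v => by
    split_ifs; exacts [ha v, le_rfl]
  have hs' : ∀ (J : Finset S) v, 0 ≤ b v * if v ∈ J then a v else 0 := fun J v =>
    mul_nonneg (hb v).1 (hs J v)
  refine le_trans ?_ (single_le_sum (f := fun I => Ps π (fun v => b v * if v ∈ I then a v else 0)
    (fun v => if v ∈ Y \ I then a v else 0) b)
    (fun J _ => Ps_nonneg π (hs' J) (hs _) hb) (mem_powerset.2 (filter_subset _ Y) : I ∈ _))
  refine le_trans ?_ (Ps_lb π (hs' I) (hs _) hb σ)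
  have hg : ∀ c, 0 ≤ 1 - pr π b c := fun c => (om_ge π σ hb c).1
  rw [lw, ← mul_assoc]
  refine mul_le_mul ?_ ?_ (prod_nonneg fun c _ => hg c)
    (prod_nonneg fun v _ => mv_nonneg (hs' _ _) (hs _ _) (hb v).1 _ _)
  · have e1 : ∏ v ∈ Y, a v = ∏ v, if v ∈ Y then a v else 1 := by
      rw [prod_ite_mem, univ_inter]
    rw [e1, pr, prod_filter, ← prod_mul_distrib]
    refine prod_le_prod (fun v _ => mul_nonneg (by split_ifs; exacts [ha v, zero_le_one])
      (by split_ifs; exacts [(hb v).1, zero_le_one])) fun v _ => ?_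
    by_cases hv : v ∈ Y
    · have h3 := h2 v hv
      have h4 : a v * b v ≤ a v := mul_le_of_le_one_right (ha v) (hb v).2
      rw [if_pos hv, if_pos (hY v hv)]
      by_cases h5 : σ v = 0
      · have h6 : σ (π v) = 1 := by omega
        have h7 : v ∈ I := mem_filter.2 ⟨hv, h5⟩
        simp [h5, h6, mv, h7, mul_comm]
      · refine h4.trans (le_of_eq ?_)
        have h6 : σ v = 1 := by omega
        have h6' : σ (π v) = 0 := by omega
        have h7 : v ∉ I := fun h => h5 (mem_filter.1 h).2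
        simp [h6, h6', mv, h7, hv]
    · have h7 : v ∉ I := fun h => hv (mem_filter.1 h).1
      rw [if_neg hv, one_mul, h1 v hv]
      by_cases h5 : σ v = 0
      · rw [h5]
        simp only [mv, of_apply, cons_val', cons_val_zero, cons_val_fin_one]
        split_ifs; exacts [(hb v).2, le_rfl]
      · have h6 : σ v = 1 := by omega
        have h8 : o π v = o π x := by by_contra h; exact h5 (h0 v h)
        simp [h6, mv, h7, h8]
  · rw [← mul_prod_erase univ (om π σ b) (mem_univ (o π x))]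
    obtain ⟨y, hy⟩ := hne
    have e : om π σ b (o π x) = 1 := if_neg fun h => h2 y hy (h y (hY y hy))
    rw [e, one_mul]
    exact prod_le_prod (fun c _ => hg c) fun c _ => (om_ge π σ hb c).2

end gen

variable {Λ : Type} [Fintype Λ] [DecidableEq Λ] {T : ℕ} [NeZero T] (ex ey : Fin T → Λ)

/-- the Green function `A⁻¹`, entry `(target, source)`; `g = Gi · u` solves `g = δ_u + K (b g)`. -/
noncomputable def Gi (p : Fin T → ℝ) (b : Fin T × Λ → ℝ) : Matrix (Fin T × Λ) (Fin T × Λ) ℝ :=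
  (1 - Kb ex ey p * diagonal b)⁻¹

/-- the Green function `A⁻¹ K`, entry `(target, source)` (used by `DL/Multi`). -/
noncomputable def Gr (p : Fin T → ℝ) (b : Fin T × Λ → ℝ) : Matrix (Fin T × Λ) (Fin T × Λ) ℝ :=
  (1 - Kb ex ey p * diagonal b)⁻¹ * Kb ex ey p

/-- the green partition function. -/
noncomputable def Zg (p : Fin T → ℝ) (b : Fin T × Λ → ℝ) : ℝ :=
  (1 - Kb ex ey p * diagonal b).det

variable {p : Fin T → ℝ} {b : Fin T × Λ → ℝ}

lemma Gi_mul (hA : Zg ex ey p b ≠ 0) :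
    Gi ex ey p b * (Kb ex ey p * diagonal b) = Gi ex ey p b - 1 := by
  have h := nonsing_inv_mul (1 - Kb ex ey p * diagonal b) (Ne.isUnit hA)
  rw [Matrix.mul_sub, Matrix.mul_one] at h
  exact eq_sub_of_add_eq' (sub_eq_iff_eq_add.1 h).symm

/-- **weighted (N0)**. -/
theorem wn0 (hp : ∀ s, 0 ≤ p s ∧ p s ≤ 1) (hb : ∀ v, 0 ≤ b v ∧ b v ≤ 1) (hA : 0 < Zg ex ey p b)
    {Y : Finset (Fin T × Λ)} (he : Even Y.card) (hne : Y.Nonempty) {a : Fin T × Λ → ℝ}
    (ha : ∀ v ∈ Y, 0 < a v) {g : Fin T × Λ → Fin T × Λ → ℝ} (hg0 : ∀ v u, 0 ≤ g v u)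
    (hg : ∀ v ∈ Y, ∀ u ∈ Y, v ≠ u → Gi ex ey p b v u ≤ g v u) {q : ℝ}
    (hq : ∑ v ∈ Y, ∑ u ∈ Y.erase v, a v * a u * g v u ≤ q)
    (W : (Fin T → Bool) → ℝ) (hW : ∀ ξ, W ξ ≤ 0 ∨ ∃ x, (∀ y ∈ Y, o (Sg ex ey ξ) y = o (Sg ex ey ξ) x) ∧
      W ξ ≤ lw (Sg ex ey ξ) b x) :
    ∑ ξ, Pw p ξ * W ξ ≤ Zg ex ey p b * (2 ^ Y.card * Real.exp q / ∏ v ∈ Y, a v) := by
  classical
  set a' : Fin T × Λ → ℝ := fun v => if v ∈ Y then a v else 0 with ha'
  have ha0 : ∀ v, 0 ≤ a' v := fun v => by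
    simp only [ha']; split_ifs with h; exacts [(ha v h).le, le_rfl]
  have hs : ∀ (J : Finset (Fin T × Λ)) v, 0 ≤ if v ∈ J then a' v else 0 := fun J v => by
    split_ifs; exacts [ha0 v, le_rfl]
  have hs' : ∀ (J : Finset (Fin T × Λ)) v, 0 ≤ b v * if v ∈ J then a' v else 0 := fun J v =>
    mul_nonneg (hb v).1 (hs J v)
  have hP : 0 < ∏ v ∈ Y, a v := prod_pos ha
  have eP : ∏ v ∈ Y, a' v = ∏ v ∈ Y, a v := prod_congr rfl fun v hv => if_pos hv
  rw [← mul_div_assoc, le_div_iff₀ hP, sum_mul]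
  have h1 : ∀ ξ, Pw p ξ * W ξ * ∏ v ∈ Y, a v ≤ ∑ I ∈ Y.powerset, Pw p ξ * Ps (Sg ex ey ξ)
      (fun v => b v * if v ∈ I then a' v else 0) (fun v => if v ∈ Y \ I then a' v else 0) b := by
    intro ξ
    rw [← mul_sum, mul_assoc]
    refine mul_le_mul_of_nonneg_left ?_ (Pw_nonneg hp ξ)
    rcases hW ξ with h | ⟨x, hx, h⟩
    · exact (mul_nonpos_of_nonpos_of_nonneg h hP.le).trans
        (sum_nonneg fun I _ => Ps_nonneg _ (hs' _) (hs _) hb)
    · refine le_trans ?_ (lw_le _ hb x hx he hne ha0)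
      rw [eP, mul_comm]
      exact mul_le_mul_of_nonneg_left h hP.le
  refine (sum_le_sum fun ξ _ => h1 ξ).trans ?_
  rw [sum_comm]
  have h2 : ∀ I ∈ Y.powerset, ∑ ξ, Pw p ξ * Ps (Sg ex ey ξ)
      (fun v => b v * if v ∈ I then a' v else 0) (fun v => if v ∈ Y \ I then a' v else 0) b ≤
      Zg ex ey p b * Real.exp q := by
    intro I hI
    have hIY := mem_powerset.1 hI
    refine (N0 ex ey hp hb (hs' I) (hs _) hA.ne').trans
      (mul_le_mul_of_nonneg_left (Real.exp_le_exp.2 (le_trans ?_ hq)) hA.le)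
    have e : (fun v => b v * if v ∈ I then a' v else 0) =
        diagonal b *ᵥ fun v => if v ∈ I then a' v else 0 := by
      funext v; rw [mulVec_diagonal]
    rw [e, mulVec_mulVec, mulVec_mulVec, Matrix.mul_assoc]
    change _ ⬝ᵥ (Gi ex ey p b * _) *ᵥ _ ≤ _
    rw [Gi_mul ex ey hA.ne']
    simp only [dotProduct, mulVec, ite_mul, zero_mul, mul_ite, mul_zero, sum_ite_mem, univ_inter]
    refine le_trans (sum_le_sum fun v hv => ?_) (sum_le_sum_of_subset_of_nonneg
      (sdiff_subset : Y \ I ⊆ Y) fun v hv _ => sum_nonneg fun u hu =>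
        mul_nonneg (mul_nonneg (ha v hv).le (ha u (mem_of_mem_erase hu)).le) (hg0 v u))
    obtain ⟨hv1, hv2⟩ := mem_sdiff.1 hv
    rw [mul_sum]
    refine le_trans (sum_le_sum fun u hu => ?_) (sum_le_sum_of_subset_of_nonneg
      (fun u hu => mem_erase.2 ⟨fun h => hv2 (h ▸ hu), hIY hu⟩ : I ⊆ Y.erase v) fun u hu _ =>
        mul_nonneg (mul_nonneg (ha v hv1).le (ha u (mem_of_mem_erase hu)).le) (hg0 v u))
    have h3 := hg v hv1 u (hIY hu) fun h => hv2 (h ▸ hu)
    have h4 : v ≠ u := fun h => hv2 (h ▸ hu)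
    simp only [ha', if_pos hv1, if_pos (hIY hu), Matrix.sub_apply, one_apply_ne h4, sub_zero]
    have := mul_le_mul_of_nonneg_left h3 (mul_nonneg (ha v hv1).le (ha u (hIY hu)).le)
    linarith
  refine (sum_le_sum h2).trans (le_of_eq ?_)
  rw [sum_const, card_powerset, nsmul_eq_mul]
  push_cast; ring

end Crest.Agent.N337.WN
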