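import Crest.Agent.N337.W.N0
import Crest.Agent.N337.L4.Ret

/-!
# Row 337, ENG (B): one-point bounds in the green measure

* `b0` : `∑ Pw * lw = Zg * (Gi x x - 1)`.
* `b1` : crude bound `σ / (1 - σ)` for loops of weight at most `σ`.
* `b2` : loops that leave through `Out`, Green function of the model with the exit arc pinned and
  killed.
-/

set_option autoImplicit false
set_option linter.unusedSectionVars false

namespace Crest.Agent.N337.WN

open Finset Equiv Matrix Function Crest.Agent.N337.Rep Crest.Agent.N337.LY0 Crest.Agent.N337.Arc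

section gen
variable {S : Type} [Fintype S] [DecidableEq S]

/-- the green weight. -/
noncomputable def gw (π : Perm S) (b : S → ℝ) : ℝ := ∏ c, (1 - pr π b c)

/-- the green weight of the loops that miss `x`. -/
noncomputable def gx (π : Perm S) (b : S → ℝ) (x : S) : ℝ :=
  ∏ c ∈ univ.erase (o π x), (1 - pr π b c)

lemma lw_eq (π : Perm S) (b : S → ℝ) (x : S) : lw π b x = pr π b (o π x) * gx π b x := rfl

lemma gw_eq (π : Perm S) (b : S → ℝ) (x : S) : gw π b = (1 - pr π b (o π x)) * gx π b x :=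
  (mul_prod_erase _ _ (mem_univ _)).symm

lemma gx_eq (π : Perm S) (b : S → ℝ) (x : S) : gx π b x = gw π b + lw π b x := by
  rw [gw_eq π b x, lw_eq]; ring

lemma gx_nonneg (π : Perm S) {b : S → ℝ} (hb : ∀ v, 0 ≤ b v ∧ b v ≤ 1) (x : S) : 0 ≤ gx π b x :=
  prod_nonneg fun c _ => sub_nonneg.2 (pr_le_one (fun v => (hb v).1) (fun v => (hb v).2) c)

lemma gw_nonneg (π : Perm S) {b : S → ℝ} (hb : ∀ v, 0 ≤ b v ∧ b v ≤ 1) : 0 ≤ gw π b :=
  prod_nonneg fun c _ => sub_nonneg.2 (pr_le_one (fun v => (hb v).1) (fun v => (hb v).2) c)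

lemma aw_self (π : Perm S) (b : S → ℝ) (x : S) : aw π b (Pi.single x 1) x = 1 := by
  rw [aw, sum_eq_single 0]
  · simp
  · intro j hj hj0
    rw [Pi.single_eq_of_ne, zero_mul]
    exact fun h => hj0 (it_inj (mem_range.1 hj) (per_pos π x) h)
  · intro h; exact absurd (mem_range.2 (per_pos π x)) h

end gen

variable {Λ : Type} [Fintype Λ] [DecidableEq Λ] {T : ℕ} [NeZero T] (ex ey : Fin T → Λ)
  {p : Fin T → ℝ} {b : Fin T × Λ → ℝ}

lemma sum_gw (p : Fin T → ℝ) (b : Fin T × Λ → ℝ) :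
    ∑ ξ, Pw p ξ * gw (Sg ex ey ξ) b = Zg ex ey p b := avg_green ex ey p b

lemma Zg_pos (hp : ∀ s, 0 ≤ p s ∧ p s ≤ 1) (hb : Fld b) : 0 < Zg ex ey p b := hb.detA_pos ex ey hp

lemma Gf_single (p : Fin T → ℝ) (b : Fin T × Λ → ℝ) (v u : Fin T × Λ) :
    Gf ex ey p b (Pi.single v 1) u = Gi ex ey p b v u := by
  simp [Gf, Gi]

/-- **(B0)** total weight of the alive loops through a point. -/
theorem b0 (hp : ∀ s, 0 ≤ p s ∧ p s ≤ 1) (hb : Fld b) (x : Fin T × Λ) :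
    ∑ ξ, Pw p ξ * lw (Sg ex ey ξ) b x = Zg ex ey p b * (Gi ex ey p b x x - 1) := by
  have h := avg_cof ex ey hb hp (Pi.single x 1) x
  have e : ∀ ξ, (mat (Sg ex ey ξ) (fun _ => 1) b).det * ((Pi.single x 1 : _ → ℝ) ⬝ᵥ
      (mat (Sg ex ey ξ) (fun _ => 1) b)⁻¹ *ᵥ Pi.single x 1) = gx (Sg ex ey ξ) b x := by
    intro ξ
    have h1 := aw_eq (Sg ex ey ξ) b (Pi.single x 1) (hb.det_pos ex ey ξ).ne' x
    rw [aw_self] at h1
    rw [det_mat1, ← gw, gw_eq _ b x, mul_right_comm, ← h1, one_mul]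
  simp only [e, gx_eq, mul_add, sum_add_distrib, sum_gw, Gf_single] at h
  rw [mul_sub, mul_one, Zg, ← h, Zg]; ring

/-- **(B1)** crude bound. -/
theorem b1 (hp : ∀ s, 0 ≤ p s ∧ p s ≤ 1) (hb : ∀ v, 0 ≤ b v ∧ b v ≤ 1) {σ : ℝ} (h0 : 0 ≤ σ)
    (h1 : σ < 1) (W : (Fin T → Bool) → ℝ) (hW : ∀ ξ, W ξ ≤ 0 ∨
      ∃ x, pr (Sg ex ey ξ) b (o _ x) ≤ σ ∧ W ξ ≤ lw (Sg ex ey ξ) b x) :
    ∑ ξ, Pw p ξ * W ξ ≤ Zg ex ey p b * (σ / (1 - σ)) := by
  have hσ : 0 < 1 - σ := sub_pos.2 h1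
  rw [← sum_gw, sum_mul]
  refine sum_le_sum fun ξ _ => ?_
  rw [mul_assoc]
  refine mul_le_mul_of_nonneg_left ?_ (Pw_nonneg hp ξ)
  rcases hW ξ with h | ⟨x, hx, h⟩
  · exact h.trans (mul_nonneg (gw_nonneg _ hb) (div_nonneg h0 hσ.le))
  · refine h.trans ?_
    rw [lw_eq, gw_eq _ b x, mul_right_comm, ← mul_div_assoc]
    refine mul_le_mul_of_nonneg_right ?_ (gx_nonneg _ hb x)
    rw [le_div_iff₀ hσ]; nlinarith

/-- keep going as long as the tip is not in `Out`. -/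
def okO (Out : Fin T × Λ → Prop) (a : ℕ → Fin T × Λ) (i : ℕ) : Prop := ¬ Out (a i)

lemma rule_okO (Out : Fin T × Λ → Prop) : Rule (okO Out) := fun a a' i h h' => by
  unfold okO at *; rwa [h i le_rfl]

/-- the arc from `x` leaves at step `n + 1`. -/
def Exit (Out : Fin T × Λ → Prop) (x : Fin T × Λ) (n : ℕ) (ξ : Fin T → Bool) : Prop :=
  (∀ j ≤ n, ¬ Out (arc ex ey x ξ j)) ∧ Out (arc ex ey x ξ (n + 1))

/-- the exit arc. -/
noncomputable def exA (x : Fin T × Λ) (n : ℕ) (ξ : Fin T → Bool) : Finset (Fin T × Λ) :=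
  (range (n + 1)).image (arc ex ey x ξ)

variable {ex ey} {Out : Fin T × Λ → Prop} {x : Fin T × Λ} {n : ℕ} {ξ ξ' : Fin T → Bool}

lemma Exit.uniq {m : ℕ} (h : Exit ex ey Out x n ξ) (h' : Exit ex ey Out x m ξ) : n = m := by
  by_contra hne
  rcases Nat.lt_or_gt_of_ne hne with hl | hl
  exacts [h'.1 _ hl h.2, h.1 _ hl h'.2]

lemma Exit.Al_eq (h : Exit ex ey Out x n ξ) : Al ex ey (okO Out) x (n + 1) ξ = exA ex ey x n ξ := by
  ext v
  simp only [mem_Al, exA, mem_image, mem_range]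
  exact exists_congr fun i => and_congr_right fun hi =>
    and_iff_right fun j hj => h.1 j (by omega)

lemma Exit.lt_per (h : Exit ex ey Out x n ξ) : n + 1 < per (Sg ex ey ξ) x := by
  by_contra hh
  have h1 : arc ex ey x ξ ((n + 1) % per (Sg ex ey ξ) x) = arc ex ey x ξ (n + 1) :=
    Function.iterate_mod_minimalPeriod_eq
  have h2 := Nat.mod_lt (n + 1) (per_pos (Sg ex ey ξ) x)
  exact h.1 _ (by omega) (h1 ▸ h.2)

lemma Exit.lt_card (h : Exit ex ey Out x n ξ) : n < Fintype.card (Fin T × Λ) := by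
  have := h.lt_per
  have h2 : per (Sg ex ey ξ) x ≤ Fintype.card (Fin T × Λ) := Function.minimalPeriod_le_card
  omega

lemma exists_exit (hx : ¬ Out x) {v : Fin T × Λ} (hv : o (Sg ex ey ξ) v = o (Sg ex ey ξ) x)
    (ho : Out v) : ∃ n, Exit ex ey Out x n ξ := by
  classical
  have hv' : v ∈ ob (Sg ex ey ξ) (o _ x) := mem_filter.2 ⟨mem_univ _, hv⟩
  rw [ob_eq] at hv'
  obtain ⟨i, -, rfl⟩ := mem_image.1 hv'
  have hex : ∃ i, Out (arc ex ey x ξ i) := ⟨i, ho⟩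
  obtain ⟨n, hn⟩ : ∃ n, Nat.find hex = n + 1 :=
    Nat.exists_eq_succ_of_ne_zero fun h => hx (by simpa [h, arc_zero] using Nat.find_spec hex)
  exact ⟨n, fun j hj => Nat.find_min hex (by omega), hn ▸ Nat.find_spec hex⟩

lemma Exit.arc_eq (h : Exit ex ey Out x n ξ)
    (hh : ∀ s ∈ tch ex ey (exA ex ey x n ξ), ξ' s = ξ s) {i : ℕ} (hi : i ≤ n + 1) :
    arc ex ey x ξ' i = arc ex ey x ξ i :=
  agree (ok := okO Out) (t := n + 1) (by rwa [X, h.Al_eq]) i hi fun j hj => h.1 j (by omega)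

lemma Exit.congr (h : Exit ex ey Out x n ξ)
    (hh : ∀ s ∈ tch ex ey (exA ex ey x n ξ), ξ' s = ξ s) :
    Exit ex ey Out x n ξ' ∧ exA ex ey x n ξ' = exA ex ey x n ξ :=
  ⟨⟨fun j hj => by rw [h.arc_eq hh (by omega)]; exact h.1 j hj,
    by rw [h.arc_eq hh le_rfl]; exact h.2⟩,
    image_congr fun i hi => h.arc_eq hh (by have := mem_range.1 (mem_coe.1 hi); omega)⟩

lemma Exit.gx_eq (b : Fin T × Λ → ℝ) (x : Fin T × Λ) (n : ℕ) (ξ : Fin T → Bool) :
    gw (Sg ex ey ξ) (kill b (exA ex ey x n ξ)) = gx (Sg ex ey ξ) b x ∧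
      pr (Sg ex ey ξ) (kill b (exA ex ey x n ξ)) (o _ x) = 0 := by
  have h0 : pr (Sg ex ey ξ) (kill b (exA ex ey x n ξ)) (o _ x) = 0 :=
    pr_zero rfl (if_pos (mem_image.2 ⟨0, by simp, rfl⟩))
  refine ⟨?_, h0⟩
  rw [gw_eq _ _ x, h0, sub_zero, one_mul]
  refine prod_congr rfl fun c hc => ?_
  refine congrArg (1 - ·) (pr_congr fun v hv => if_neg fun hm => ?_)
  obtain ⟨i, -, rfl⟩ := mem_image.1 hm
  exact ne_of_mem_erase hc (hv.symm.trans (o_it _ i x))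

lemma Exit.pr_le (h : Exit ex ey Out x n ξ) (hb : ∀ v, 0 ≤ b v ∧ b v ≤ 1) :
    pr (Sg ex ey ξ) b (o _ x) ≤
      aw (Sg ex ey ξ) (kill b (exA ex ey x n ξ)) (Pi.single x 1) (arc ex ey x ξ (n + 1)) := by
  obtain ⟨j, hj⟩ := Nat.exists_eq_add_of_le h.lt_per.le
  have hk : ∀ v, 0 ≤ kill b (exA ex ey x n ξ) v ∧ kill b (exA ex ey x n ξ) v ≤ 1 := fun v => by
    unfold kill; split_ifs; exacts [⟨le_rfl, zero_le_one⟩, hb v]
  refine le_trans ?_ (aw_ge _ hk (fun v => by rw [Pi.single_apply]; split_ifs <;> norm_num) _ j)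
  have e : ∀ i, (Sg ex ey ξ)^[i] (arc ex ey x ξ (n + 1)) = (Sg ex ey ξ)^[n + 1 + i] x := fun i =>
    (arc_add ex ey x ξ (n + 1) i).symm
  simp only [e]
  rw [← hj, it_per, Pi.single_eq_same, one_mul, pr, prod_ob, hj, prod_range_add]
  refine (mul_le_of_le_one_left (prod_nonneg fun i _ => (hb _).1)
    (prod_le_one (fun i _ => (hb _).1) fun i _ => (hb _).2)).trans (le_of_eq ?_)
  refine prod_congr rfl fun i hi => (if_neg fun hm => ?_).symm
  obtain ⟨l, hl, hl'⟩ := mem_image.1 hm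
  have h1 := mem_range.1 hi
  have h2 := mem_range.1 hl
  have := it_inj (π := Sg ex ey ξ) (x := x) (i := l) (j := n + 1 + i) (by omega) (by omega) hl'
  omega

/-- the conditional bound given the exit arc. -/
lemma Exit.cond (h : Exit ex ey Out x n ξ) (hp : ∀ s, 0 ≤ p s ∧ p s ≤ 1) (hb : Fld b) {γ : ℝ}
    (h1 : γ < 1) (hγ : Gi ex ey (pin p (tch ex ey (exA ex ey x n ξ)) ξ) (kill b (exA ex ey x n ξ))
      x (arc ex ey x ξ (n + 1)) ≤ γ) :
    ∑ ξ', Pw (pin p (tch ex ey (exA ex ey x n ξ)) ξ) ξ' * lw (Sg ex ey ξ') b x ≤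
      γ / (1 - γ) * ∑ ξ', Pw (pin p (tch ex ey (exA ex ey x n ξ)) ξ) ξ' * gw (Sg ex ey ξ') b := by
  set p' := pin p (tch ex ey (exA ex ey x n ξ)) ξ with hp'
  set b' := kill b (exA ex ey x n ξ) with hb'
  have hq := pin_mem hp (tch ex ey (exA ex ey x n ξ)) ξ
  have hc := avg_cof ex ey (hb.kill (exA ex ey x n ξ)) hq (Pi.single x 1) (arc ex ey x ξ (n + 1))
  rw [Gf_single] at hc
  have e1 : ∑ ξ', Pw p' ξ' * lw (Sg ex ey ξ') b x ≤ Zg ex ey p' b' * γ := by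
    refine le_trans ?_ (hc.le.trans (mul_le_mul_of_nonneg_left hγ (Zg_pos ex ey hq (hb.kill _)).le))
    refine sum_le_sum fun ξ' _ => ?_
    by_cases hw : Pw p' ξ' = 0
    · rw [← hp', hw, zero_mul, zero_mul]
    refine mul_le_mul_of_nonneg_left ?_ (Pw_nonneg hq ξ')
    obtain ⟨h2, h3⟩ := h.congr (Pw_pin_supp hw)
    have h4 := Exit.gx_eq (ex := ex) (ey := ey) b x n ξ'
    have h5 := h2.pr_le hb.mem
    rw [h3, h.arc_eq (Pw_pin_supp hw) le_rfl, aw_eq _ _ _ ((hb.kill _).det_pos ex ey ξ').ne',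
      ← h.arc_eq (Pw_pin_supp hw) le_rfl, show o (Sg ex ey ξ') (arc ex ey x ξ' (n + 1)) = o _ x from
        o_it _ _ x, ← h3, h4.2, sub_zero, one_mul, h3, h.arc_eq (Pw_pin_supp hw) le_rfl] at h5
    rw [det_mat1, ← gw, ← h3, h4.1, h3, lw_eq, mul_comm]
    exact mul_le_mul_of_nonneg_left h5 (gx_nonneg _ hb.mem x)
  have e2 : Zg ex ey p' b' = ∑ ξ', Pw p' ξ' * gw (Sg ex ey ξ') b +
      ∑ ξ', Pw p' ξ' * lw (Sg ex ey ξ') b x := by
    rw [← sum_gw, ← sum_add_distrib]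
    refine sum_congr rfl fun ξ' _ => ?_
    by_cases hw : Pw p' ξ' = 0
    · simp [hw]
    rw [← mul_add, ← WN.gx_eq, hb', ← (h.congr (Pw_pin_supp hw)).2, (Exit.gx_eq b x n ξ').1]
  rw [div_mul_eq_mul_div, le_div_iff₀ (sub_pos.2 h1)]
  rw [e2] at e1
  linarith

variable (ex ey)

/-- **(B2)** loops through `x` whose exit arc is good. -/
theorem b2 (hp : ∀ s, 0 ≤ p s ∧ p s ≤ 1) (hb : Fld b) {γ : ℝ} (h0 : 0 ≤ γ) (h1 : γ < 1)
    (Out : Fin T × Λ → Prop) (x : Fin T × Λ) (W : (Fin T → Bool) → ℝ)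
    (hW : ∀ ξ, W ξ ≤ 0 ∨ (W ξ ≤ lw (Sg ex ey ξ) b x ∧ ∃ n, Exit ex ey Out x n ξ ∧
      Gi ex ey (pin p (tch ex ey (exA ex ey x n ξ)) ξ) (kill b (exA ex ey x n ξ))
        x (arc ex ey x ξ (n + 1)) ≤ γ)) :
    ∑ ξ, Pw p ξ * W ξ ≤ Zg ex ey p b * (γ / (1 - γ)) := by
  classical
  set I : ℕ → (Fin T → Bool) → ℝ := fun n ξ => if Exit ex ey Out x n ξ ∧
    Gi ex ey (pin p (tch ex ey (exA ex ey x n ξ)) ξ) (kill b (exA ex ey x n ξ))
      x (arc ex ey x ξ (n + 1)) ≤ γ then 1 else 0 with hI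
  set N := Fintype.card (Fin T × Λ)
  have hP := pr_pb hp
  have hI0 : ∀ n ξ, 0 ≤ I n ξ := fun n ξ => by simp only [hI]; split_ifs <;> norm_num
  have hγ : 0 ≤ γ / (1 - γ) := div_nonneg h0 (sub_pos.2 h1).le
  have hS : ∀ n, PH.Stop (E := fun _ : Fin T => Bool) (X ex ey (okO Out) x (n + 1)) := fun n ξ ξ' h => by
    rw [X, X, Al_stop (rule_okO Out) h]
  have hM : ∀ n, PH.Meas (E := fun _ : Fin T => Bool) (X ex ey (okO Out) x (n + 1)) (I n) := by
    intro n ξ ξ' h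
    have key : ∀ ξ ξ' : Fin T → Bool, (∀ s ∈ X ex ey (okO Out) x (n + 1) ξ, ξ' s = ξ s) →
        I n ξ = 1 → I n ξ' = 1 := by
      intro ξ ξ' h h'
      simp only [hI, ite_eq_left_iff, zero_ne_one, imp_false, not_not] at h' ⊢
      rw [X, h'.1.Al_eq] at h
      obtain ⟨h2, h3⟩ := h'.1.congr h
      rw [h3, pin_congr p h, h'.1.arc_eq h le_rfl]
      exact ⟨h2, h'.2⟩
    have h' : ∀ s ∈ X ex ey (okO Out) x (n + 1) ξ', ξ s = ξ' s := fun s hs =>
      (h s (hS n ξ ξ' h ▸ hs)).symm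
    have k1 := key ξ ξ' h
    have k2 := key ξ' ξ h'
    simp only [hI] at k1 k2 ⊢
    split_ifs at k1 k2 ⊢ <;> simp_all
  calc ∑ ξ, Pw p ξ * W ξ
      ≤ PH.ex (pb p) fun ξ => ∑ n ∈ range N, I n ξ * lw (Sg ex ey ξ) b x := by
        refine hP.ex_mono fun ξ => ?_
        have hn := fun n => mul_nonneg (hI0 n ξ) (lw_nonneg (Sg ex ey ξ) hb.mem x)
        rcases hW ξ with h | ⟨h, n, h2, h3⟩
        · exact h.trans (sum_nonneg fun n _ => hn n)
        · refine h.trans (le_trans ?_ (single_le_sum (fun n _ => hn n) (mem_range.2 h2.lt_card)))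
          simp only [hI, if_pos (And.intro h2 h3), one_mul, le_refl]
    _ ≤ ∑ n ∈ range N, γ / (1 - γ) * PH.ex (pb p) fun ξ => I n ξ * gw (Sg ex ey ξ) b := by
        rw [PH.ex_sum]
        refine sum_le_sum fun n _ => ?_
        rw [← (hS n).ex_mul_P hP (hM n), ← (hS n).ex_mul_P hP (hM n) fun ξ => gw (Sg ex ey ξ) b,
          ← PH.ex_mul]
        refine hP.ex_mono fun ξ => ?_
        simp only [hI]
        split_ifs with h
        · rw [one_mul, one_mul, P_pin, P_pin, X, h.1.Al_eq]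
          exact h.1.cond hp hb h1 h.2
        · simp
    _ ≤ Zg ex ey p b * (γ / (1 - γ)) := by
        rw [← mul_sum, ← PH.ex_sum, mul_comm, ← sum_gw]
        refine mul_le_mul_of_nonneg_right (hP.ex_mono fun ξ => ?_) hγ
        rw [← sum_mul]
        refine mul_le_of_le_one_left (gw_nonneg _ hb.mem) ?_
        simp only [hI, sum_boole, Nat.cast_le_one]
        exact card_le_one.2 fun n hn m hm => (mem_filter.1 hn).2.1.uniq (mem_filter.1 hm).2.1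

end Crest.Agent.N337.WN
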